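import Vale.Agent.P281.H713.SA.Defs
import Vale.Agent.P299.H723.D.Stmt

/-! P281, theorem SA (`K_X` semiample): the blocks of the proof, as propositions. -/

open scoped Manifold ContDiff Topology ComplexOrder
open Set Vale.Agent.P281.J Vale.Agent.P272.K

noncomputable section

namespace Vale.Agent.P281.H713.SA

open Vale.Agent.P299.D

/-- sections of `m K_X`, as in `kod` -/
abbrev IsPluri {n : ℕ} {X : Type} [TopologicalSpace X] [ChartedSpace (Cm n) X] (m : ℕ)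
    (s : X → ℂ) : Prop :=
  IsSection (Cm n) (fun (D : Set X) z g => IsLocalEq (Cm n) D g z) m 0 s

/-- **Block X** (Yau + Bochner).  `X` compact connected Kähler, `φ` a smooth metric on `K_X` with
semipositive curvature form `θ = i∂∂̄φ`, of rank `≤ ν`; `τ1 = u τ0` proportional holomorphic covariant
tensors.  Then `du` vanishes on `ker θ` at the points where `θ` has rank `ν` (and `τ0 ≠ 0`). -/
def XPart : Prop := ∀ (n q : ℕ) (X : Type) [TopologicalSpace X] [T2Space X] [CompactSpace X]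
  [ConnectedSpace X] [ChartedSpace (Cm n) X] [IsManifold 𝓘(ℂ, Cm n) ω X]
  (χ : Chart n X → Cm n → Matrix (Fin n) (Fin n) ℂ) (_ : IsKahler χ)
  (φ : Chart n X → Cm n → ℝ) (_ : IsCanonicalMetric φ)
  (_ : ∀ e x, At e x → (cHess (φ e) (e x)).PosSemidef)
  (ν : ℕ) (_ : ∀ e x, At e x → (cHess (φ e) (e x)).rank ≤ ν)
  (τ0 τ1 : Ten n q X) (_ : IsTen q 0 τ0) (_ : IsTen q 0 τ1)
  (_ : ∀ e x, At e x → ∀ I J, τ0 e (e x) I * τ1 e (e x) J = τ0 e (e x) J * τ1 e (e x) I)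
  (e : Chart n X) (x : X) (_ : At e x) (I : Fin q → Fin n) (_ : τ0 e (e x) I ≠ 0)
  (_ : (cHess (φ e) (e x)).rank = ν) (v : Cm n)
  (_ : ∀ j, ∑ i, v i * cHess (φ e) (e x) i j = 0),
  fderiv ℂ (fun z => τ1 e z I / τ0 e z I) (e x) v = 0

/-- **Block M** (metric).  If `m K_X` is generated by the sections `s b`, then
`φ = (1/m) log ∑ |s b|²` is a smooth metric on `K_X` with semipositive curvature form `θ`, and
`ker θ` consists of the `v` such that `d(s b / s b₀)(v) = 0` for all `b`, if `s b₀ ≠ 0`. -/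
def MetricPart : Prop := ∀ (n : ℕ) (X : Type) [TopologicalSpace X]
  [ChartedSpace (Cm n) X] [IsManifold 𝓘(ℂ, Cm n) ω X] (m N : ℕ) (_ : 0 < m)
  (s : Fin N → X → ℂ) (_ : ∀ b, IsPluri (n := n) m (s b)) (_ : ∀ x, ∃ b, s b x ≠ 0),
  ∃ φ : Chart n X → Cm n → ℝ, IsCanonicalMetric φ ∧
    (∀ e x, At e x → (cHess (φ e) (e x)).PosSemidef) ∧
    ∀ e x, At e x → ∀ b₀, s b₀ x ≠ 0 → ∀ v : Cm n,
      (∀ j, ∑ i, v i * cHess (φ e) (e x) i j = 0) ↔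
        ∀ b, fderiv ℂ (fun z => s b (e.symm z) / s b₀ (e.symm z)) (e x) v = 0

/-- **Block R** (adjunction).  Restriction of pluricanonical forms to a smooth fibre: there is a
nowhere zero `G` (a trivialization of the determinant of the normal bundle) such that
`(s ∘ i) G ^ m` is a section of `m K_F` for every section `s` of `m K_Z`. -/
def RestrPart : Prop := ∀ (n p d : ℕ) (_ : n = p + d) (Z Y F : Type)
  [TopologicalSpace Z] [ChartedSpace (Cm n) Z] [IsManifold 𝓘(ℂ, Cm n) ω Z]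
  [TopologicalSpace Y] [ChartedSpace (Cm p) Y] [IsManifold 𝓘(ℂ, Cm p) ω Y]
  [TopologicalSpace F] [ChartedSpace (Cm d) F] [IsManifold 𝓘(ℂ, Cm d) ω F]
  (f : Z → Y) (_ : ContMDiff 𝓘(ℂ, Cm n) 𝓘(ℂ, Cm p) ω f)
  (i : F → Z) (_ : IsSmoothFibre (Cm n) (Cm p) (Cm d) f i),
  ∃ G : F → ℂ, (∀ t, G t ≠ 0) ∧ ∀ (m : ℕ) (s : Z → ℂ), IsPluri (n := n) m s →
    IsPluri (n := d) m (fun t => s (i t) * G t ^ m)

/-- **Block K** (pull-back of Kähler metrics by immersions). -/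
def PullPart : Prop := ∀ (n d : ℕ) (X F : Type)
  [TopologicalSpace X] [ChartedSpace (Cm n) X] [IsManifold 𝓘(ℂ, Cm n) ω X]
  [TopologicalSpace F] [ChartedSpace (Cm d) F] [IsManifold 𝓘(ℂ, Cm d) ω F]
  (g : F → X) (_ : ContMDiff 𝓘(ℂ, Cm d) 𝓘(ℂ, Cm n) ω g)
  (_ : ∀ t, Function.Injective (mfderiv 𝓘(ℂ, Cm d) 𝓘(ℂ, Cm n) g t))
  (χ : Chart n X → Cm n → Matrix (Fin n) (Fin n) ℂ) (_ : IsKahler χ),
  ∃ χF : Chart d F → Cm d → Matrix (Fin d) (Fin d) ℂ, IsKahler χF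

/-- **Block T** (tensors).  The pull-backs of the sections `σ` of `m (K_Y + B)`, `B ≤ B(f, 0)`, by
`f : X ⇢ Y` (holomorphic on the big open subset `Z` of `X`), are holomorphic covariant tensors on
`X`; in the chart `e` of `X` at the point `j z` off the divisors `𝒢` the tensor is `σ (f z) T e z`,
where `T` does not depend on `σ`. -/
def TensorPart : Prop := ∀ (n p : ℕ) (X Z Y : Type)
  [TopologicalSpace X] [ChartedSpace (Cm n) X] [IsManifold 𝓘(ℂ, Cm n) ω X]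
  [TopologicalSpace Z] [ChartedSpace (Cm n) Z] [IsManifold 𝓘(ℂ, Cm n) ω Z]
  [TopologicalSpace Y] [ChartedSpace (Cm p) Y] [IsManifold 𝓘(ℂ, Cm p) ω Y]
  (j : Z → X) (_ : IsBigOpen (Cm n) j) (f : Z → Y) (_ : ContMDiff 𝓘(ℂ, Cm n) 𝓘(ℂ, Cm p) ω f)
  (𝒢 : Set (Set Y)) (_ : IsDivisorial (Cm n) (Cm p) f 𝒢) (m : ℕ) (k : Set Y → ℕ)
  (_ : ∀ G, (k G : ℝ) ≤ m * orbBase' (Cm n) (Cm p) f 0 G) (_ : ∀ G, k G ≠ 0 → G ∈ 𝒢),
  ∃ (q : ℕ) (T : Chart n X → Z → (Fin q → Fin n) → ℂ),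
    (∀ e z, At e (j z) → Function.Surjective (mfderiv 𝓘(ℂ, Cm n) 𝓘(ℂ, Cm p) f z) →
      ∃ I, T e z I ≠ 0) ∧
    ∀ σ : Y → ℂ, IsSection (Cm p) (fun (D : Set Y) z g => IsLocalEq (Cm p) D g z) m k σ →
      ∃ τ : Ten n q X, IsTen q 0 τ ∧
        ∀ e z, At e (j z) → f z ∉ ⋃₀ 𝒢 → ∀ I, τ e (e (j z)) I = σ (f z) * T e z I

/-- **Theorem SA**. -/
def MainPart : Prop := ∀ (n p d : ℕ) (_ : n = p + d) (X Z Y F : Type)
  [TopologicalSpace X] [T2Space X] [CompactSpace X] [ConnectedSpace X]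
  [ChartedSpace (Cm n) X] [IsManifold 𝓘(ℂ, Cm n) ω X]
  [TopologicalSpace Z] [ChartedSpace (Cm n) Z] [IsManifold 𝓘(ℂ, Cm n) ω Z]
  [TopologicalSpace Y] [T2Space Y] [ConnectedSpace Y]
  [ChartedSpace (Cm p) Y] [IsManifold 𝓘(ℂ, Cm p) ω Y]
  [TopologicalSpace F] [T2Space F] [CompactSpace F] [ConnectedSpace F]
  [ChartedSpace (Cm d) F] [IsManifold 𝓘(ℂ, Cm d) ω F]
  (χ : Chart n X → Cm n → Matrix (Fin n) (Fin n) ℂ) (_ : IsKahler χ) (_ : IsSemiample (Cm n) X)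
  (j : Z → X) (_ : IsBigOpen (Cm n) j) (f : Z → Y) (_ : ContMDiff 𝓘(ℂ, Cm n) 𝓘(ℂ, Cm p) ω f)
  (𝒢 : Set (Set Y)) (_ : IsDivisorial (Cm n) (Cm p) f 𝒢)
  (_ : ∀ G, orbBase' (Cm n) (Cm p) f 0 G ≠ 0 → G ∈ 𝒢)
  (i : F → Z) (_ : IsSmoothFibre (Cm n) (Cm p) (Cm d) f i),
  kod (Cm d) (fun (C : Set F) x g => IsLocalEq (Cm d) C g x) 0 +
    kod (Cm p) (fun (G : Set Y) y g => IsLocalEq (Cm p) G g y) (orbBase' (Cm n) (Cm p) f 0) ≤
    kod (Cm n) (fun (D : Set X) x g => IsLocalEq (Cm n) D g x) 0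

end Vale.Agent.P281.H713.SA
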