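import Vale.Agent.P281.H713.SA.G5
import Vale.Agent.P281.H167.SA.XC
import Vale.Agent.P281.H167.SA.K
import Vale.Agent.P281.H597.SA.R
import Vale.Agent.P281.H949.SA.M

/-! P281, theorem SA: `K_X` semiample. -/

namespace Vale.Agent.P281.H713.SA

/-- **Theorem SA**. -/
theorem mainPart : MainPart :=
  main_of Vale.Agent.P281.H167.SA.xPart
    Vale.Agent.P281.H949.SA.metricPart Vale.Agent.P281.H597.SA.restrPart
    Vale.Agent.P281.H167.SA.pullPart tensorPart

end Vale.Agent.P281.H713.SA
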