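import Vale.Agent.P281.ISO.DefsQ
import Vale.Agent.P272.K.Stmt

namespace Vale.Agent.P281.H713

open scoped Manifold ContDiff Topology
open Set Vale.Agent.P281.J

universe u

section

variable (E E' E₀ : Type) [NormedAddCommGroup E] [NormedSpace ℂ E]
  [NormedAddCommGroup E'] [NormedSpace ℂ E'] [NormedAddCommGroup E₀] [NormedSpace ℂ E₀]
variable {X Y F : Type u} [TopologicalSpace X] [ChartedSpace E X]
  [TopologicalSpace Y] [ChartedSpace E' Y] [TopologicalSpace F] [ChartedSpace E₀ F]

/-- `K_X` is semiample: for some `m > 0`, the line bundle `m K_X` is generated by finitely many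
global sections `s b`. -/
def IsSemiample (X : Type u) [TopologicalSpace X] [ChartedSpace E X] : Prop :=
  ∃ (m N : ℕ) (s : Fin N → X → ℂ), 0 < m ∧
    (∀ b, IsSection E (fun (D : Set X) z g => IsLocalEq E D g z) m 0 (s b)) ∧
    ∀ x, ∃ b, s b x ≠ 0

/-- The holomorphic immersion `i` maps `F` to a fibre of `f : X → Y`, and `f` is submersive along
`i(F)` (for instance, `F` is a smooth fibre of `f`). -/
structure IsSmoothFibre (f : X → Y) (i : F → X) : Prop where
  hol : ContMDiff 𝓘(ℂ, E₀) 𝓘(ℂ, E) ω i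
  immersive : ∀ t, Function.Injective (mfderiv 𝓘(ℂ, E₀) 𝓘(ℂ, E) i t)
  const : ∀ t t', f (i t) = f (i t')
  submersive : ∀ t, Function.Surjective (mfderiv 𝓘(ℂ, E) 𝓘(ℂ, E') f (i t))

end

end Vale.Agent.P281.H713
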