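import Vale.Agent.P281.H713.SA.T4
import Vale.Agent.P272.K.Inv.Chart
import Vale.Agent.P272.K.INT.Part
import Vale.Agent.P272.K.INT.Dens

/-! P281, theorem SA, block T: extension to `X`. -/

open scoped Manifold ContDiff Topology ComplexOrder
open Set Filter Metric Asymptotics Vale.Agent.P272.K

noncomputable section

namespace Vale.Agent.P281.H713.SA

open Vale.Agent.P281 Vale.Agent.P281.MF Vale.Agent.P281.ISO

set_option linter.unusedSectionVars false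

section Glue

variable {E : Type} [NormedAddCommGroup E] [NormedSpace ℂ E] [FiniteDimensional ℂ E]
variable {X : Type} [TopologicalSpace X] [ChartedSpace E X] [IsManifold 𝓘(ℂ, E) ω X]

theorem eq_of_dense {Ω : Set X} (hΩ : Dense Ω) {g h : X → ℂ} {x : X} (hg : ContinuousAt g x)
    (hh : ContinuousAt h x) (he : ∀ᶠ y in 𝓝 x, y ∈ Ω → g y = h y) : g x = h x := by
  by_contra hcon
  have h7 : ContinuousAt (fun y => g y - h y) x := hg.sub hh
  have h8 := h7.eventually_ne (sub_ne_zero.2 hcon)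
  have h9 : ∃ᶠ y in 𝓝 x, y ∈ Ω := mem_closure_iff_frequently.1 (hΩ x)
  obtain ⟨y, hy, hy1, hy2⟩ := (h9.and_eventually (he.and h8)).exists
  exact hy2 (sub_eq_zero.2 (hy1 hy))

open Classical in
/-- the extension -/
def ext (E : Type) [NormedAddCommGroup E] [NormedSpace ℂ E] {X : Type} [TopologicalSpace X]
    [ChartedSpace E X] (Ω : Set X) (h : X → ℂ) (x : X) : ℂ :=
  if hx : ∃ Q : X → ℂ, HolV E Q x ∧ ∀ᶠ y in 𝓝 x, y ∈ Ω → h y = Q y then hx.choose x else 0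

theorem ext_eq {Ω : Set X} (hΩ : Dense Ω) {h : X → ℂ} {x : X} {Q : X → ℂ} (hQ : HolV E Q x)
    (hQe : ∀ᶠ y in 𝓝 x, y ∈ Ω → h y = Q y) : ext E Ω h x = Q x := by
  have hx : ∃ Q : X → ℂ, HolV E Q x ∧ ∀ᶠ y in 𝓝 x, y ∈ Ω → h y = Q y := ⟨Q, hQ, hQe⟩
  rw [ext, dif_pos hx]
  refine eq_of_dense hΩ hx.choose_spec.1.continuousAt hQ.continuousAt ?_
  filter_upwards [hx.choose_spec.2, hQe] with y h1 h2 hy
  rw [← h1 hy, h2 hy]

theorem ext_eventually {Ω : Set X} (hΩ : Dense Ω) {h : X → ℂ} {x : X} {Q : X → ℂ}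
    (hQ : HolV E Q x) (hQe : ∀ᶠ y in 𝓝 x, y ∈ Ω → h y = Q y) :
    ext E Ω h =ᶠ[𝓝 x] Q := by
  filter_upwards [hQ.eventually, hQe.eventually_nhds] with y h1 h2
  exact ext_eq hΩ h1 h2

theorem ext_holV {Ω : Set X} (hΩ : Dense Ω) {h : X → ℂ} {x : X}
    (hx : ∃ Q : X → ℂ, HolV E Q x ∧ ∀ᶠ y in 𝓝 x, y ∈ Ω → h y = Q y) : HolV E (ext E Ω h) x := by
  obtain ⟨Q, hQ, hQe⟩ := hx
  exact hQ.congr (ext_eventually hΩ hQ hQe)

theorem ext_self {Ω : Set X} (hΩ : Dense Ω) {h : X → ℂ} {x : X}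
    (hx : ∃ Q : X → ℂ, HolV E Q x ∧ ∀ᶠ y in 𝓝 x, y ∈ Ω → h y = Q y) (hxΩ : x ∈ Ω) :
    ext E Ω h x = h x := by
  obtain ⟨Q, hQ, hQe⟩ := hx
  rw [ext_eq hΩ hQ hQe, hQe.self_of_nhds hxΩ]

/-- extension from a big open subset -/
theorem ext_big {Z : Type} [TopologicalSpace Z] [ChartedSpace E Z] [IsManifold 𝓘(ℂ, E) ω Z]
    {j : Z → X} (hj₁ : Topology.IsOpenEmbedding j)
    (hthin : ∀ x, ∃ h : X → ℂ, HolV E h x ∧ (¬ ∀ᶠ z in 𝓝 x, h z = 0) ∧
      ∀ᶠ z in 𝓝 x, (z ∉ range j → h z = 0) ∧ (h z = 0 → z ∈ closure {z | h z = 0 ∧ z ∈ range j}))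
    {Ω : Set X} (hΩj : Ω ⊆ range j) (hΩ : Dense Ω) {h : X → ℂ} {U : Set X} (hU : IsOpen U)
    (hloc : ∀ x ∈ U, x ∈ range j → ∃ Q : X → ℂ, HolV E Q x ∧ ∀ᶠ y in 𝓝 x, y ∈ Ω → h y = Q y)
    {x₀ : X} (hx₀ : x₀ ∈ U) :
    ∃ Q : X → ℂ, HolV E Q x₀ ∧ ∀ᶠ y in 𝓝 x₀, y ∈ Ω → h y = Q y := by
  obtain ⟨Den, hDen, hDne, hDev⟩ := hthin x₀
  have hUx : ∀ᶠ y in 𝓝 x₀, y ∈ U := hU.mem_nhds hx₀
  obtain ⟨Q, hQ, hQe⟩ := extendM_off (h := ext E Ω h) hDen hDne (by
    filter_upwards [hDev, hUx] with y hy hyU h0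
    refine ext_holV hΩ (hloc y hyU ?_)
    by_contra h3
    exact h0 (hy.1 h3)) (by
    filter_upwards [hDev, hUx.eventually_nhds] with y hy hyU h0
    have h1 := mem_closure_iff_frequently.1 (hy.2 h0)
    rw [mem_closure_iff_frequently]
    refine (h1.and_eventually hyU).mono ?_
    rintro y₁ ⟨⟨h2, h3⟩, h4⟩
    have h5 := (ext_holV hΩ (hloc y₁ h4 h3)).continuousAt
    refine ⟨h2, ‖ext E Ω h y₁‖ + 1, ?_⟩
    filter_upwards [h5.norm.eventually_lt_const (lt_add_one ‖ext E Ω h y₁‖)] with w hw _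
    exact hw.le)
  refine ⟨Q, hQ, ?_⟩
  filter_upwards [hUx, hQ.eventually, hQe.eventually_nhds, ne_frequently hDen hDne] with
    y hyU hQy hQey hfr hyΩ
  have hy1 := hloc y hyU (hΩj hyΩ)
  rw [← ext_self hΩ hy1 hyΩ]
  by_contra hcon
  have h3 : ContinuousAt (fun y => ext E Ω h y - Q y) y :=
    (ext_holV hΩ hy1).continuousAt.sub hQy.continuousAt
  have h4 : ∀ᶠ y in 𝓝 y, ext E Ω h y - Q y ≠ 0 := h3.eventually_ne (sub_ne_zero.2 hcon)
  obtain ⟨w, hw1, hw2, hw3⟩ := (hfr.and_eventually (h4.and hQey)).exists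
  exact hw2 (sub_eq_zero.2 (hw3 hw1))

end Glue

section Chart

variable {n : ℕ} {X Z : Type} [TopologicalSpace X] [ChartedSpace (Cm n) X]
  [IsManifold 𝓘(ℂ, Cm n) ω X] [TopologicalSpace Z] [ChartedSpace (Cm n) Z]
  [IsManifold 𝓘(ℂ, Cm n) ω Z]

theorem holV_at {e : Chart n X} {x : X} (h : At e x) : HolV (Cm n) (e : X → Cm n) x :=
  INT.chart_contMDiffAt h

theorem isUnit_at {e : Chart n X} {x : X} (h : At e x) : IsUnit (dV (Cm n) (e : X → Cm n) x) := by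
  refine isUnit_of_det_ne fun h0 => ?_
  have hmem : e ∈ IsManifold.maximalAtlas 𝓘(ℂ, Cm n) ω X := IsManifold.subset_maximalAtlas h.1
  have h1 : MDifferentiableAt 𝓘(ℂ, Cm n) 𝓘(ℂ, Cm n) e.symm (e x) :=
    (contMDiffAt_symm_of_mem_maximalAtlas hmem (e.map_source h.2)).mdifferentiableAt (by simp)
  have h2 : MDifferentiableAt 𝓘(ℂ, Cm n) 𝓘(ℂ, Cm n) e x :=
    (holV_at h).mdiff
  have h3 : (e.symm ∘ e) =ᶠ[𝓝 x] id := by
    filter_upwards [e.open_source.mem_nhds h.2] with y hy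
    exact e.left_inv hy
  have h4 := mfderiv_comp (I := 𝓘(ℂ, Cm n)) (I' := 𝓘(ℂ, Cm n)) (I'' := 𝓘(ℂ, Cm n)) x h1 h2
  rw [Filter.EventuallyEq.mfderiv_eq h3, mfderiv_id] at h4
  have h5 : (ContinuousLinearMap.id ℂ (Cm n)) = ContinuousLinearMap.comp
      (mfderiv 𝓘(ℂ, Cm n) 𝓘(ℂ, Cm n) e.symm (e x) : Cm n →L[ℂ] Cm n)
      (dV (Cm n) (e : X → Cm n) x) := h4
  have h6 := congrArg ContinuousLinearMap.det h5
  have h7 := clm_det_comp (mfderiv 𝓘(ℂ, Cm n) 𝓘(ℂ, Cm n) e.symm (e x) : Cm n →L[ℂ] Cm n)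
    (dV (Cm n) (e : X → Cm n) x)
  rw [h0, mul_zero] at h7
  have h8 := h6.trans h7
  simp [ContinuousLinearMap.det] at h8

theorem holV_ej {j : Z → X} (hj : ∀ z, HolM (Cm n) (Cm n) j z) {e : Chart n X} {z : Z}
    (h : At e (j z)) : HolV (Cm n) (fun z => e (j z)) z :=
  HolV.comp (h := (e : X → Cm n)) (holV_at h) (hj z)

theorem isUnit_ej {j : Z → X} (hj : ∀ z, HolM (Cm n) (Cm n) j z)
    (hj₂ : ∀ z, Function.Injective (dM (Cm n) (Cm n) j z)) {e : Chart n X} {z : Z}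
    (h : At e (j z)) : IsUnit (dV (Cm n) (fun z => e (j z)) z) := by
  rw [dV_comp (h := (e : X → Cm n)) (holV_at h) (hj z)]
  exact IsUnit.mul (isUnit_at h) (isUnit_of_det_ne (det_ne_of_inj (hj₂ z)))

/-- change of chart -/
theorem dV_change {j : Z → X} (hj : ∀ z, HolM (Cm n) (Cm n) j z) {e e' : Chart n X} {z : Z}
    (h : At e (j z)) (h' : At e' (j z)) :
    dV (Cm n) (fun z => e' (j z)) z =
      (fderiv ℂ (fun w => e' (e.symm w)) (e (j z))).comp (dV (Cm n) (fun z => e (j z)) z) := by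
  have h1 := INT.transition_contDiffAt h h'
  have h2 := dV_comp_contDiff (G := fun w => e' (e.symm w)) (v := fun z => e (j z)) h1
    (holV_ej hj h)
  rw [← h2]
  refine Filter.EventuallyEq.mfderiv_eq ?_
  filter_upwards [(ContMDiffAt.continuousAt (hj z)).eventually (e.open_source.mem_nhds h.2)] with
    w hw
  show e' (j w) = e' (e.symm (e (j w)))
  rw [e.left_inv hw]

theorem jacM_apply {e e' : Chart n X} {x : X} (h : At e x) (h' : At e' x) (q i : Fin n) :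
    jacM e e' x q i = fderiv ℂ (fun w => e' (e.symm w)) (e x) (Pi.single i 1) q := by
  have h1 : DifferentiableAt ℂ (fun w => e' (e.symm w)) (e x) :=
    (INT.transition_contDiffAt h h').differentiableAt (by simp)
  have h2 : DifferentiableAt ℂ (fun w => e' (e.symm w) q) (e x) := differentiableAt_pi.1 h1 q
  show dz i (fun z => e' (e.symm z) q) (e x) = _
  rw [INT.dz_of_holo h2]
  have h3 := fderiv_pi (fun q => differentiableAt_pi.1 h1 q)
  have h4 : fderiv ℂ (fun w => e' (e.symm w)) (e x) =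
      ContinuousLinearMap.pi fun q => fderiv ℂ (fun w => e' (e.symm w) q) (e x) := h3
  rw [h4]
  rfl

theorem contAt_jacM {e e' : Chart n X} {x : X} (h : At e x) (h' : At e' x) (q i : Fin n) :
    ContinuousAt (fun y => jacM e e' y q i) x := by
  have h1 := (jacM_holo h h' q i).continuousAt
  have h2 : ContinuousAt (fun y => jacM e e' (e.symm (e y)) q i) x :=
    ContinuousAt.comp (g := fun z => jacM e e' (e.symm z) q i) h1 (e.continuousAt h.2)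
  refine h2.congr ?_
  filter_upwards [e.open_source.mem_nhds h.2] with y hy
  rw [e.left_inv hy]

end Chart

end Vale.Agent.P281.H713.SA
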