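import Vale.Agent.P281.H713.SA.T1

/-! P281, theorem SA, block T: local extension of the pulled back tensors on `Z`. -/

open scoped Manifold ContDiff Topology ComplexOrder
open Set Filter Metric Asymptotics Vale.Agent.P272.K

noncomputable section

namespace Vale.Agent.P281.H713.SA

open Vale.Agent.P281 Vale.Agent.P281.MF Vale.Agent.P281.ISO

set_option linter.unusedSectionVars false

section Units

variable {V : Type} [NormedAddCommGroup V] [NormedSpace ℂ V] [FiniteDimensional ℂ V]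

theorem isUnit_of_det_ne {A : V →L[ℂ] V} (h : A.det ≠ 0) : IsUnit A := by
  set L : V ≃ₗ[ℂ] V := LinearMap.equivOfDetNeZero (A : V →ₗ[ℂ] V) h
  have h1 : A = ((L.toContinuousLinearEquiv : V ≃L[ℂ] V) : V →L[ℂ] V) := by
    ext v
    rfl
  rw [h1]
  exact ⟨ContinuousLinearEquiv.toUnit L.toContinuousLinearEquiv, rfl⟩

theorem det_ne_of_isUnit {A : V →L[ℂ] V} (h : IsUnit A) : A.det ≠ 0 := by
  obtain ⟨u, rfl⟩ := h
  intro h0
  have h1 : ((u : V →L[ℂ] V).comp ((u⁻¹ : (V →L[ℂ] V)ˣ) : V →L[ℂ] V)) =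
      ContinuousLinearMap.id ℂ V := u.mul_inv
  have h2 := congrArg ContinuousLinearMap.det h1
  rw [clm_det_comp, h0, zero_mul] at h2
  simp [ContinuousLinearMap.det] at h2

theorem inverse_comp {A B : V →L[ℂ] V} (hA : IsUnit A) (hB : IsUnit B) :
    Ring.inverse (A.comp B) = (Ring.inverse B).comp (Ring.inverse A) := by
  obtain ⟨u, rfl⟩ := hA
  obtain ⟨v, rfl⟩ := hB
  have h : ((u : V →L[ℂ] V).comp (v : V →L[ℂ] V)) = ((u * v : (V →L[ℂ] V)ˣ) : V →L[ℂ] V) := rfl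
  rw [h, Ring.inverse_unit, Ring.inverse_unit, Ring.inverse_unit, mul_inv_rev]
  rfl

end Units

section Quot

variable {E : Type} [NormedAddCommGroup E] [NormedSpace ℂ E] [FiniteDimensional ℂ E]
variable {Z : Type} [TopologicalSpace Z] [ChartedSpace E Z] [IsManifold 𝓘(ℂ, E) ω Z]
variable {V : Type} [NormedAddCommGroup V] [NormedSpace ℂ V]

theorem isUnit_dV_chart {x₀ z : Z} (hz : z ∈ (chartAt E x₀).source) :
    IsUnit (dV E (chartAt E x₀ : Z → E) z) :=
  isUnit_of_det_ne (jac_chart_ne_zero hz)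

theorem holV_fderiv {h : Z → V} {x₀ z₁ : Z} (hz : z₁ ∈ (chartAt E x₀).source)
    (hh : HolV E h z₁) :
    HolV E (fun z => fderiv ℂ (h ∘ (chartAt E x₀).symm) (chartAt E x₀ z)) z₁ :=
  HolV.comp_contDiff (G := fderiv ℂ (h ∘ (chartAt E x₀).symm))
    ((hh.rep hz).fderiv_right (by simp)) (HolV.chart hz)

theorem unit_nhds {c : Z → E} {z₁ : Z} (hc : HolV E c z₁) (hu : IsUnit (dV E c z₁)) :
    ∀ᶠ z in 𝓝 z₁, HolV E c z ∧ IsUnit (dV E c z) ∧ z ∈ (chartAt E z₁).source ∧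
      IsUnit (fderiv ℂ (c ∘ (chartAt E z₁).symm) (chartAt E z₁ z)) := by
  have : CompleteSpace E := FiniteDimensional.complete ℂ E
  set φ := chartAt E z₁ with hφ
  have hz : z₁ ∈ φ.source := mem_chart_source E z₁
  have hC := holV_fderiv hz hc
  have h1 : IsUnit (fderiv ℂ (c ∘ φ.symm) (φ z₁)) := by
    have h2 : (dV E c z₁) = (fderiv ℂ (c ∘ φ.symm) (φ z₁)).comp (dV E (φ : Z → E) z₁) :=
      dV_eq_chart hz hc
    refine isUnit_of_det_ne fun h0 => ?_
    have h3 := congrArg ContinuousLinearMap.det h2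
    rw [clm_det_comp, h0, zero_mul] at h3
    exact det_ne_of_isUnit hu h3
  have h2 : ∀ᶠ z in 𝓝 z₁, IsUnit (fderiv ℂ (c ∘ φ.symm) (φ z)) :=
    hC.continuousAt.eventually (Units.isOpen.mem_nhds h1)
  filter_upwards [hc.eventually, h2, φ.open_source.mem_nhds hz] with z h3 h4 h5
  refine ⟨h3, ?_, h5, h4⟩
  rw [dV_eq_chart h5 h3]
  exact IsUnit.mul h4 (isUnit_dV_chart h5)

theorem quot_eq {h : Z → V} {c : Z → E} {x₀ z : Z} (hz : z ∈ (chartAt E x₀).source)
    (hh : HolV E h z) (hc : HolV E c z)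
    (hu : IsUnit (fderiv ℂ (c ∘ (chartAt E x₀).symm) (chartAt E x₀ z))) :
    (dV E h z).comp (Ring.inverse (dV E c z)) =
      (fderiv ℂ (h ∘ (chartAt E x₀).symm) (chartAt E x₀ z)).comp
        (Ring.inverse (fderiv ℂ (c ∘ (chartAt E x₀).symm) (chartAt E x₀ z))) := by
  have hP := isUnit_dV_chart (E := E) hz
  rw [dV_eq_chart hz hh, dV_eq_chart hz hc, inverse_comp hu hP]
  have h1 : (dV E (chartAt E x₀ : Z → E) z).comp (Ring.inverse (dV E (chartAt E x₀ : Z → E) z)) =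
      ContinuousLinearMap.id ℂ E := Ring.mul_inverse_cancel _ hP
  calc _ = ((fderiv ℂ (h ∘ (chartAt E x₀).symm) (chartAt E x₀ z)).comp
        ((dV E (chartAt E x₀ : Z → E) z).comp
          (Ring.inverse (dV E (chartAt E x₀ : Z → E) z)))).comp
        (Ring.inverse (fderiv ℂ (c ∘ (chartAt E x₀).symm) (chartAt E x₀ z))) := rfl
    _ = _ := by rw [h1]; rfl

/-- the family `dh ∘ (dc)⁻¹` is holomorphic -/
theorem holV_quot {h : Z → V} {c : Z → E} {z₁ : Z} (hh : HolV E h z₁) (hc : HolV E c z₁)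
    (hu : IsUnit (dV E c z₁)) :
    HolV E (fun z => (dV E h z).comp (Ring.inverse (dV E c z))) z₁ := by
  have : CompleteSpace E := FiniteDimensional.complete ℂ E
  set φ := chartAt E z₁ with hφ
  have hz : z₁ ∈ φ.source := mem_chart_source E z₁
  have hev := unit_nhds hc hu
  have hC := holV_fderiv hz hc
  have hH := holV_fderiv hz hh
  have hCu : IsUnit (fderiv ℂ (c ∘ φ.symm) (φ z₁)) := hev.self_of_nhds.2.2.2
  have hinv : ContDiffAt ℂ ω (fun A : E →L[ℂ] E => Ring.inverse A)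
      (fderiv ℂ (c ∘ φ.symm) (φ z₁)) := by
    obtain ⟨u, hu'⟩ := hCu
    rw [← hu']
    exact contDiffAt_ringInverse ℂ u
  have hI : HolV E (fun z => Ring.inverse (fderiv ℂ (c ∘ φ.symm) (φ z))) z₁ :=
    HolV.comp_contDiff hinv hC
  have h1 : HolV E (fun z => (fderiv ℂ (h ∘ φ.symm) (φ z)).comp
      (Ring.inverse (fderiv ℂ (c ∘ φ.symm) (φ z)))) z₁ :=
    HolV.of_rep hz ((hH.rep hz).clm_comp (hI.rep hz))
  refine h1.congr ?_
  filter_upwards [hev, hh.eventually] with z h2 h3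
  exact quot_eq h2.2.2.1 h3 h2.1 h2.2.2.2

end Quot

section Det

variable {n p : ℕ} {Z : Type} [TopologicalSpace Z] [ChartedSpace (Cm n) Z]
  [IsManifold 𝓘(ℂ, Cm n) ω Z]

theorem holV_det_mK {A : Z → (Cm n →L[ℂ] Cm p)} {z : Z} (hA : HolV (Cm n) A z)
    (K : Fin p → Fin n) : HolV (Cm n) (fun z => (mK (A z) K).det) z := by
  have h1 : ContDiff ℂ ω (fun A : Cm n →L[ℂ] Cm p => (mK A K).det) := by
    have h2 : (fun A : Cm n →L[ℂ] Cm p => (mK A K).det) = fun A =>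
        ∑ σ : Equiv.Perm (Fin p), ((Equiv.Perm.sign σ : ℤ) : ℂ) *
          ∏ i, A (Pi.single (K i) 1) (σ i) := by
      funext A
      rw [Matrix.det_apply']
      rfl
    rw [h2]
    refine ContDiff.sum fun σ _ => contDiff_const.mul (contDiff_prod fun i _ => ?_)
    exact (ContinuousLinearMap.proj (R := ℂ) (φ := fun _ : Fin p => ℂ) (σ i)).contDiff.comp
      (ContinuousLinearMap.apply ℂ (Cm p) (Pi.single (K i) (1 : ℂ) : Cm n)).contDiff
  exact HolV.comp_contDiff (G := fun A : Cm n →L[ℂ] Cm p => (mK A K).det) h1.contDiffAt hA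

theorem holV_tq (m : ℕ) {A : Z → (Cm n →L[ℂ] Cm p)} {z : Z} (hA : HolV (Cm n) A z)
    (I : Fin (m * p) → Fin n) : HolV (Cm n) (fun z => tq m (A z) I) z :=
  HolV.prod fun _ _ => holV_det_mK hA _

end Det

end Vale.Agent.P281.H713.SA
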