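import Vale.Agent.P281.H713.SA.G4

/-! P281, theorem SA, main part: the main theorem from the blocks. -/

open scoped Manifold ContDiff Topology ComplexOrder
open Set Filter Metric Vale.Agent.P281.J Vale.Agent.P272.K

noncomputable section

namespace Vale.Agent.P281.H713.SA

open Vale.Agent.P281 Vale.Agent.P281.MF Vale.Agent.P281.ISO Vale.Agent.P299.D

set_option linter.unusedSectionVars false

/-- submersions are open -/
theorem nhds_le_map {n p : ℕ} {Z Y : Type} [TopologicalSpace Z] [ChartedSpace (Cm n) Z]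
    [IsManifold 𝓘(ℂ, Cm n) ω Z] [TopologicalSpace Y] [ChartedSpace (Cm p) Y]
    [IsManifold 𝓘(ℂ, Cm p) ω Y] {f : Z → Y} {z : Z} (hf : HolM (Cm n) (Cm p) f z)
    (hs : Function.Surjective (dM (Cm n) (Cm p) f z)) : 𝓝 (f z) ≤ map f (𝓝 z) := by
  set φ := chartAt (Cm n) z with hφ
  set ψ := chartAt (Cm p) (f z) with hψ
  have hz : z ∈ φ.source := mem_chart_source (Cm n) z
  have hy : f z ∈ ψ.source := mem_chart_source (Cm p) (f z)
  have hψf : HolV (Cm n) (fun w => ψ (f w)) z := HolV.comp (h := (ψ : Y → Cm p)) (HolV.chart hy) hf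
  have h1 : ContDiffAt ℂ ω ((fun w => ψ (f w)) ∘ φ.symm) (φ z) := hψf.rep hz
  have h2 := dV_eq_chart hz hψf
  have h3 := dV_comp (h := (ψ : Y → Cm p)) (HolV.chart hy) hf
  have hsurj : Function.Surjective (fderiv ℂ ((fun w => ψ (f w)) ∘ φ.symm) (φ z)) := by
    intro y
    obtain ⟨v, hv⟩ := surj_of_isUnit (isUnit_dV_chart (E := Cm p) hy) y
    obtain ⟨u, hu⟩ := hs v
    refine ⟨dV (Cm n) (φ : Z → Cm n) z u, ?_⟩
    have h4 := congrArg (fun T : Cm n →L[ℂ] Cm p => T u) h2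
    have h5 := congrArg (fun T : Cm n →L[ℂ] Cm p => T u) h3
    simp only [ContinuousLinearMap.comp_apply] at h4 h5
    rw [← h4, h5, hu, hv]
  have h4 := (h1.hasStrictFDerivAt (by simp)).map_nhds_eq_of_surj
    (LinearMap.range_eq_top.2 hsurj)
  have h5 : ((fun w => ψ (f w)) ∘ φ.symm) (φ z) = ψ (f z) := by
    simp [φ.left_inv hz]
  rw [h5] at h4
  have h6 : map (φ : Z → Cm n) (𝓝 z) = 𝓝 (φ z) := φ.map_nhds_eq hz
  have h7 : map ψ.symm (𝓝 (ψ (f z))) = 𝓝 (f z) := by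
    have := ψ.symm.map_nhds_eq (ψ.map_source hy)
    rwa [ψ.left_inv hy] at this
  rw [← h7, ← h4, ← h6, map_map, map_map]
  refine (Filter.map_congr ?_).le
  filter_upwards [φ.open_source.mem_nhds hz,
    hf.continuousAt.eventually (ψ.open_source.mem_nhds hy)] with w h8 h9
  show ψ.symm (ψ (f (φ.symm (φ w)))) = f w
  rw [φ.left_inv h8, ψ.left_inv h9]

/-- pull-back of pluricanonical forms to open subsets -/
theorem pluri_open (hR : RestrPart) {n : ℕ} {X Z : Type} [TopologicalSpace X]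
    [ChartedSpace (Cm n) X] [IsManifold 𝓘(ℂ, Cm n) ω X] [TopologicalSpace Z]
    [ChartedSpace (Cm n) Z] [IsManifold 𝓘(ℂ, Cm n) ω Z] {j : Z → X}
    (hj : J.IsBigOpen (Cm n) j) : ∃ G : Z → ℂ, (∀ t, G t ≠ 0) ∧ ∀ (m : ℕ) (s : X → ℂ),
      IsPluri (n := n) m s → IsPluri (n := n) m (fun t => s (j t) * G t ^ m) :=
  hR n 0 n (Nat.zero_add n).symm X (Cm 0) Z (fun _ => 0) contMDiff_const j
    ⟨hj.1, hj.2.2.1, fun _ _ => rfl, fun _ y => ⟨0, Subsingleton.elim (α := Cm 0) _ _⟩⟩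

/-- **Main part**. -/
theorem main_of (hX : XPart) (hM : MetricPart) (hR : RestrPart) (hP : PullPart)
    (hT : TensorPart) : MainPart := by
  classical
  intro n p d hnpd X Z Y F _ _ _ _ _ _ _ _ _ _ _ _ _ _ _ _ _ _ _ _ χ hχ hsa j hj f hf 𝒢 h𝒢
    hbase i hi
  rw [JB.kod_eq, JB.kod_eq, JB.kod_eq]
  refine kod_add_le fun j₁ j₂ h1 h2 => ?_
  obtain ⟨m, N, s, hm, hs, hgen⟩ := hsa
  obtain ⟨m₁, k₁, t, t₀, hm₁, hk₁, ht, -, ht0, htl⟩ := h1
  obtain ⟨m₂, k, σ, y₀, hm₂, hk, hσ, hky₀, hσ0, hσl⟩ := h2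
  -- the boundary of `Y`
  have hkG : ∀ G, k G ≠ 0 → G ∈ 𝒢 := by
    intro G hG
    refine hbase G fun h0 => ?_
    have h3 := hk G
    rw [h0, mul_zero] at h3
    exact hG (by exact_mod_cast h3)
  have hkfin : {G | k G ≠ 0}.Finite := h𝒢.1.subset fun G hG => hkG G hG
  have hkpr : ∀ G, k G ≠ 0 → IsPrimeDivisor (Cm p) G := fun G hG => h𝒢.2.1 G (hkG G hG)
  have hy₀ : ∀ G, k G ≠ 0 → y₀ ∉ G := by
    intro G hG hy
    obtain ⟨g, hg, hg0⟩ := hky₀ G hG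
    exact hg0 (IsLocalEq.mem_iff hg |>.1 hy)
  have hodY := ind_open_dense (n := p) (κ := k) (s := σ) hkfin hkpr hσ ⟨y₀, hy₀, hσ0, hσl⟩
  have h𝒢od := dense_compl_finite (X := Y) h𝒢.1 (fun G hG => (h𝒢.2.1 G hG).1) (fun G hG => by
    rw [dense_iff_inter_open]
    intro U hU hUne
    obtain ⟨x, hxU, hxD⟩ := IsLocalEq.exists_notMem (h𝒢.2.1 G hG).2.1 hU hUne
    exact ⟨x, hxU, hxD⟩)
  -- the fibre
  have hk₁0 : k₁ = 0 := by
    funext C
    have h3 := hk₁ C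
    simp only [Pi.zero_apply, mul_zero, Nat.cast_eq_zero] at h3
    exact h3
  subst hk₁0
  have hjh : ∀ z, HolM (Cm n) (Cm n) j z := fun z => hj.1 z
  have hfh : ∀ z, HolM (Cm n) (Cm p) f z := fun z => hf z
  have hih : ∀ z, HolM (Cm d) (Cm n) i z := fun z => hi.hol z
  obtain ⟨G₁, hG₁, hG₁s⟩ := pluri_open hR hj
  obtain ⟨G₂, hG₂, hG₂s⟩ := hR n p d hnpd Z Y F f hf i hi
  set sF : Fin N → F → ℂ := fun b t => (s b (j (i t)) * G₁ (i t) ^ m) * G₂ t ^ m with hsF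
  have hsFs : ∀ b, IsPluri (n := d) m (sF b) := fun b => hG₂s m _ (hG₁s m _ (hs b))
  have hsF0 : ∀ b t, sF b t ≠ 0 ↔ s b (j (i t)) ≠ 0 := by
    intro b t
    simp only [hsF]
    constructor
    · intro h
      exact left_ne_zero_of_mul (left_ne_zero_of_mul h)
    · intro h
      exact mul_ne_zero (mul_ne_zero h (pow_ne_zero _ (hG₁ _))) (pow_ne_zero _ (hG₂ _))
  have hsFr : ∀ b b' t, sF b t / sF b' t = s b (j (i t)) / s b' (j (i t)) := by
    intro b b' t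
    simp only [hsF]
    rw [mul_div_mul_right _ _ (pow_ne_zero _ (hG₂ _)), mul_div_mul_right _ _
      (pow_ne_zero _ (hG₁ _))]
  have hji : ContMDiff 𝓘(ℂ, Cm d) 𝓘(ℂ, Cm n) ω (fun t => j (i t)) := hj.1.comp hi.hol
  have hjii : ∀ t, Function.Injective (mfderiv 𝓘(ℂ, Cm d) 𝓘(ℂ, Cm n) (fun t => j (i t)) t) := by
    intro t
    have h3 := mfderiv_comp (I := 𝓘(ℂ, Cm d)) (I' := 𝓘(ℂ, Cm n)) (I'' := 𝓘(ℂ, Cm n))
      (g := j) (f := i) t ((hj.1 (i t)).mdifferentiableAt (by simp))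
      ((hi.hol t).mdifferentiableAt (by simp))
    have h4 : mfderiv 𝓘(ℂ, Cm d) 𝓘(ℂ, Cm n) (fun t => j (i t)) t = _ := h3
    rw [h4]
    exact (hj.2.2.1 (i t)).comp (hi.immersive t)
  obtain ⟨χF, hχF⟩ := hP n d X F (fun t => j (i t)) hji hjii χ hχ
  obtain ⟨t₃, b₀, c, hb₀, hcl⟩ := semiample_kod hT hX hM hχF hm hsFs
    (fun t => (hgen (j (i t))).imp fun b hb => (hsF0 b t).2 hb) ht
    ⟨t₀, fun C hC => (zero_poles C hC).elim, ht0, htl⟩
  -- the point `z₁`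
  set z₁ : Z := i t₃ with hz₁
  have hb₀' : s b₀ (j z₁) ≠ 0 := (hsF0 b₀ t₃).1 hb₀
  have hrat : ∀ b b' x, s b' x ≠ 0 → HolV (Cm n) (fun w => s b w / s b' w) x := fun b b' x h =>
    (secAt_pluri (hs b) x).div_holV (secAt_pluri (hs b') x) h
  set u : Fin j₁ → Z → ℂ := fun b z => s (c b) (j z) / s b₀ (j z) with hu
  have huh : ∀ b z, s b₀ (j z) ≠ 0 → HolV (Cm n) (u b) z := fun b z h =>
    HolV.comp (h := fun w => s (c b) w / s b₀ w) (hrat (c b) b₀ (j z) h) (hjh z)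
  set ψ := chartAt (Cm p) (f z₁) with hψ
  have hy₁ : f z₁ ∈ ψ.source := mem_chart_source (Cm p) (f z₁)
  have hψf : ∀ z, f z ∈ ψ.source → HolV (Cm n) (fun z => ψ (f z)) z := fun z h =>
    HolV.comp (h := (ψ : Y → Cm p)) (HolV.chart h) (hfh z)
  have hψd : ∀ z, f z ∈ ψ.source → ∀ ξ, dV (Cm n) (fun z => ψ (f z)) z ξ =
      dV (Cm p) (ψ : Y → Cm p) (f z) (dM (Cm n) (Cm p) f z ξ) := by
    intro z h ξ
    have h3 := dV_comp (h := (ψ : Y → Cm p)) (HolV.chart h) (hfh z)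
    exact congrArg (fun T : Cm n →L[ℂ] Cm p => T ξ) h3
  set h : Fin j₁ ⊕ Fin p → Z → ℂ := Sum.elim u fun a z => ψ (f z) a with hh
  have hhol : ∀ l, HolV (Cm n) (h l) z₁ := by
    rintro (b | a)
    · exact huh b z₁ hb₀'
    · exact (hψf z₁ hy₁).eval a
  -- linear independence at `z₁`
  have hli₁ : LinearIndependent ℂ (fun l => dif (Cm n) (h l) z₁) := by
    refine JB.linearIndependent_of_surjective fun y => ?_
    obtain ⟨η₀, hη₀⟩ := surj_of_isUnit (isUnit_dV_chart (E := Cm p) hy₁) fun a => y (Sum.inr a)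
    obtain ⟨ξ₀, hξ₀⟩ : ∃ ξ₀ : Cm n, dM (Cm n) (Cm p) f z₁ ξ₀ = η₀ := hi.submersive t₃ η₀
    have hcs := JB.surjective_of_linearIndependent hcl
    obtain ⟨ζ, hζ⟩ := hcs fun b => y (Sum.inl b) - dif (Cm n) (u b) z₁ ξ₀
    refine ⟨ξ₀ + dM (Cm d) (Cm n) i t₃ ζ, ?_⟩
    funext l
    rcases l with b | a
    · show dif (Cm n) (u b) z₁ (ξ₀ + dM (Cm d) (Cm n) i t₃ ζ) = y (Sum.inl b)
      rw [map_add]
      have h3 : dif (Cm d) (fun t => u b (i t)) t₃ =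
          (dif (Cm n) (u b) (i t₃)).comp (dM (Cm d) (Cm n) i t₃) :=
        dif_comp (huh b z₁ hb₀') (hih t₃)
      have h4 : (fun t => u b (i t)) = fun t => sF (c b) t / sF b₀ t := by
        funext t
        exact (hsFr (c b) b₀ t).symm
      have h5 := congrArg (fun T : Cm d →L[ℂ] ℂ => T ζ) h3
      simp only [ContinuousLinearMap.comp_apply] at h5
      rw [← h5, h4]
      have h6 := congrFun hζ b
      have h7 : dif (Cm d) (fun t => sF (c b) t / sF b₀ t) t₃ ζ =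
        y (Sum.inl b) - dif (Cm n) (u b) z₁ ξ₀ := h6
      rw [h7]
      ring
    · show dif (Cm n) (fun z => ψ (f z) a) z₁ (ξ₀ + dM (Cm d) (Cm n) i t₃ ζ) = y (Sum.inr a)
      have h3 : dif (Cm n) (fun z => ψ (f z) a) z₁ (ξ₀ + dM (Cm d) (Cm n) i t₃ ζ) =
          dV (Cm n) (fun z => ψ (f z)) z₁ (ξ₀ + dM (Cm d) (Cm n) i t₃ ζ) a :=
        (dV_apply (hψf z₁ hy₁) a _).symm
      rw [h3, hψd z₁ hy₁, map_add]
      have h4 : dM (Cm n) (Cm p) f z₁ (dM (Cm d) (Cm n) i t₃ ζ) = 0 := by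
        have h5 := mfderiv_comp (I := 𝓘(ℂ, Cm d)) (I' := 𝓘(ℂ, Cm n)) (I'' := 𝓘(ℂ, Cm p))
          (g := f) (f := i) t₃ ((hf (i t₃)).mdifferentiableAt (by simp))
          ((hi.hol t₃).mdifferentiableAt (by simp))
        have h6 : (f ∘ i) = fun _ => f (i t₃) := by
          funext t
          exact hi.const t t₃
        rw [h6, mfderiv_const] at h5
        exact (congrArg (fun T : Cm d →L[ℂ] Cm p => T ζ) h5).symm
      have h5 : dM (Cm n) (Cm p) f z₁ ξ₀ = η₀ := hξ₀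
      rw [h4, h5, add_zero, hη₀]
  -- the open set
  have hev : ∀ᶠ z in 𝓝 z₁, LinearIndependent ℂ (fun l => dif (Cm n) (h l) z) ∧
      s b₀ (j z) ≠ 0 ∧ f z ∈ ψ.source := by
    filter_upwards [linearIndependent_dif_eventually hhol hli₁,
      (hjh z₁).continuousAt.eventually ((secAt_pluri (hs b₀) (j z₁)).ev_ne hb₀'),
      (hfh z₁).continuousAt.eventually (ψ.open_source.mem_nhds hy₁)] with z h3 h4 h5
    exact ⟨h3, h4, h5⟩
  obtain ⟨O, hO, hOo, hzO⟩ := eventually_nhds_iff.1 hev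
  -- the metric on `K_X`
  obtain ⟨φ, hφ, hpsd, hker⟩ := hM n X m N hm s hs hgen
  obtain ⟨ν, R, hRo, hRd, hmax, hRR⟩ := exists_max hs hker hgen
  have hjRd : Dense (j ⁻¹' R) := hRd.preimage hj.2.1.isOpenMap
  obtain ⟨z', hz'O, hz'R⟩ := hjRd.inter_open_nonempty O hOo ⟨z₁, hzO⟩
  have hsurj : ∀ z ∈ O, ∀ (a : Fin j₁ → ℂ) (η : Cm p), ∃ ξ, (∀ b, dif (Cm n) (u b) z ξ = a b) ∧
      dM (Cm n) (Cm p) f z ξ = η := by
    intro z hz a η
    obtain ⟨h3, -, h5⟩ := hO z hz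
    obtain ⟨ξ, hξ⟩ := JB.surjective_of_linearIndependent h3
      (Sum.elim a (dV (Cm p) (ψ : Y → Cm p) (f z) η))
    refine ⟨ξ, fun b => congrFun hξ (Sum.inl b), ?_⟩
    have h6 : dV (Cm n) (fun z => ψ (f z)) z ξ = dV (Cm p) (ψ : Y → Cm p) (f z) η := by
      funext l
      rw [dV_apply (hψf z h5) l]
      exact congrFun hξ (Sum.inr l)
    rw [hψd z h5] at h6
    obtain ⟨A, hA⟩ := dV_chart_leftInv (E := Cm p) h5
    have h7 : ∀ v, A (dV (Cm p) (ψ : Y → Cm p) (f z) v) = v := fun v =>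
      congrArg (fun T : Cm p →L[ℂ] Cm p => T v) hA
    rw [← h7 (dM (Cm n) (Cm p) f z ξ), h6, h7]
  have hsub : ∀ z ∈ O, Function.Surjective (dM (Cm n) (Cm p) f z) := fun z hz η => by
    obtain ⟨ξ, -, h3⟩ := hsurj z hz 0 η
    exact ⟨ξ, h3⟩
  have hO' : O ∩ j ⁻¹' R ∈ 𝓝 z' := (hOo.inter (hRo.preimage hj.1.continuous)).mem_nhds ⟨hz'O, hz'R⟩
  have himg : f '' (O ∩ j ⁻¹' R) ∈ 𝓝 (f z') := nhds_le_map (hfh z') (hsub z' hz'O) (image_mem_map hO')
  have hYd : Dense (Ind (n := p) k σ ∩ {y | ∀ G ∈ 𝒢, y ∉ G}) :=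
    hodY.2.inter_of_isOpen_left h𝒢od.2 hodY.1
  obtain ⟨y₂, hy₂I, hy₂⟩ := hYd.inter_nhds_nonempty himg
  obtain ⟨z₂, ⟨hz₂O, hz₂R⟩, rfl⟩ := hy₂
  obtain ⟨⟨hkz, hσz, hσlz⟩, h𝒢z⟩ := hy₂I
  have hb₂ : s b₀ (j z₂) ≠ 0 := (hO z₂ hz₂O).2.1
  have he : At (chartAt (Cm n) (j z₂)) (j z₂) :=
    ⟨chart_mem_atlas (Cm n) (j z₂), mem_chart_source (Cm n) (j z₂)⟩
  -- the sections of `m₂ (K_Y + B)` are constant along `ker θ`
  have hσh : ∀ b : Fin j₂, HolV (Cm p) (fun w => σ b.succ w / σ 0 w) (f z₂) := fun b =>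
    (secAt_of hkpr (hσ b.succ) hkz).div_holV (secAt_of hkpr (hσ 0) hkz) hσz
  set α : Fin N → (Cm n →L[ℂ] ℂ) := fun b => dif (Cm n) (fun z => s b (j z) / s b₀ (j z)) z₂
    with hα
  have hαj : ∀ b, α b = (al (n := n) s b₀ (j z₂) b).comp (dM (Cm n) (Cm n) j z₂) := fun b =>
    dif_comp (g := fun w => s b w / s b₀ w) (hrat b b₀ (j z₂) hb₂) (hjh z₂)
  have hkey : ∀ v, (∀ b, α b v = 0) → ∀ b : Fin j₂,
      dif (Cm n) (fun z => σ b.succ (f z) / σ 0 (f z)) z₂ v = 0 := by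
    intro v hv b
    refine sections_const (j := j) (f := f) (𝒢 := 𝒢) (m := m₂) (k := k)
      (σ₀ := σ 0) (σ₁ := σ b.succ) (z₂ := z₂) (e := chartAt (Cm n) (j z₂)) hT hX hχ hφ hpsd hmax
      hj hf h𝒢 (fun G => (hk G).le) hkG (hσ 0) (hσ b.succ) ?_ (hsub z₂ hz₂O) hσz he
      (hRR _ _ he hz₂R) ?_
    · rintro ⟨G, hG, hGz⟩
      exact h𝒢z G hG hGz
    · refine (hker _ _ he b₀ hb₂ _).2 fun b => ?_
      have h3 := hv b
      rw [hαj] at h3
      have h4 := al_apply hs he hb₂ b (dM (Cm n) (Cm n) j z₂ v)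
      have h5 : al (n := n) s b₀ (j z₂) b (dM (Cm n) (Cm n) j z₂ v) = 0 := h3
      rw [h5] at h4
      have h6 := dV_comp (h := (chartAt (Cm n) (j z₂) : X → Cm n)) (holV_at he) (hjh z₂)
      have h7 := congrArg (fun T : Cm n →L[ℂ] Cm n => T v) h6
      simp only [ContinuousLinearMap.comp_apply] at h7
      rw [h7]
      exact h4.symm
  -- the linearly independent family
  set β : Fin j₁ ⊕ Fin j₂ → (Cm n →L[ℂ] ℂ) := Sum.elim (fun b => dif (Cm n) (u b) z₂)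
    fun b => dif (Cm n) (fun z => σ b.succ (f z) / σ 0 (f z)) z₂ with hβ
  have hβl : LinearIndependent ℂ β := by
    refine JB.linearIndependent_of_surjective fun y => ?_
    obtain ⟨η, hη⟩ := JB.surjective_of_linearIndependent hσlz fun b => y (Sum.inr b)
    obtain ⟨ξ, hξ1, hξ2⟩ := hsurj z₂ hz₂O (fun b => y (Sum.inl b)) η
    refine ⟨ξ, ?_⟩
    funext l
    rcases l with b | b
    · exact hξ1 b
    · have h3 : dif (Cm n) (fun z => σ b.succ (f z) / σ 0 (f z)) z₂ =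
          (dif (Cm p) (fun w => σ b.succ w / σ 0 w) (f z₂)).comp (dM (Cm n) (Cm p) f z₂) :=
        dif_comp (g := fun w => σ b.succ w / σ 0 w) (hσh b) (hfh z₂)
      show dif (Cm n) (fun z => σ b.succ (f z) / σ 0 (f z)) z₂ ξ = y (Sum.inr b)
      rw [h3, ContinuousLinearMap.comp_apply, hξ2]
      exact congrFun hη b
  have h3 := li_card_le (α := α) (β := β) (fun v hv => by
    rintro (b | b)
    · exact hv (c b)
    · exact hkey v hv b) hβl
  have h4 : α = fun b => (al (n := n) s b₀ (j z₂) b).comp (dM (Cm n) (Cm n) j z₂) := funext hαj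
  rw [Fintype.card_sum, Fintype.card_fin, Fintype.card_fin, h4, finrank_span_comp _
    (surj_of_isUnit (isUnit_of_det_ne (det_ne_of_inj (hj.2.2.1 z₂))))] at h3
  obtain ⟨c', hc'⟩ := exists_li_sub h3
  refine ⟨m, 0, Fin.cons (s b₀) fun b => s (c' b), j z₂, hm, by simp, ?_, by simp, hb₂, hc'⟩
  intro b
  refine Fin.cases ?_ (fun b => ?_) b
  · exact hs b₀
  · exact hs (c' b)

end Vale.Agent.P281.H713.SA
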