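import Vale.Agent.P281.H713.SA.G2

/-! P281, theorem SA, main part: pulled back sections are constant along the kernel of `θ`. -/

open scoped Manifold ContDiff Topology ComplexOrder
open Set Filter Metric Vale.Agent.P281.J Vale.Agent.P272.K

noncomputable section

namespace Vale.Agent.P281.H713.SA

open Vale.Agent.P281 Vale.Agent.P281.MF Vale.Agent.P281.ISO Vale.Agent.P299.D

set_option linter.unusedSectionVars false

section Good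

variable {n p : ℕ} {X Z Y : Type} [TopologicalSpace X] [ChartedSpace (Cm n) X]
  [IsManifold 𝓘(ℂ, Cm n) ω X] [TopologicalSpace Z] [ChartedSpace (Cm n) Z]
  [IsManifold 𝓘(ℂ, Cm n) ω Z] [TopologicalSpace Y] [ChartedSpace (Cm p) Y]
  [IsManifold 𝓘(ℂ, Cm p) ω Y]

theorem dense_good {j : Z → X} (hj : J.IsBigOpen (Cm n) j) {f : Z → Y}
    (hf : ContMDiff 𝓘(ℂ, Cm n) 𝓘(ℂ, Cm p) ω f) {𝒢 : Set (Set Y)}
    (h𝒢 : J.IsDivisorial (Cm n) (Cm p) f 𝒢) : Dense {x : X | ∃ z, j z = x ∧ f z ∉ ⋃₀ 𝒢} := by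
  obtain ⟨hj0, hj₁, hj₂, hthinj⟩ := hj
  obtain ⟨h𝒢fin, h𝒢pr, 𝒟, h𝒟fin, hpre, hdom⟩ := h𝒢
  have hfh : ∀ z, HolM (Cm n) (Cm p) f z := fun z => hf z
  have h𝒟pr : ∀ D ∈ 𝒟, IsPrimeDivisor (Cm n) D := fun D hD => by
    obtain ⟨G, hG, h1, -⟩ := hdom D hD
    exact h1
  have hthin := thin_of_components (f := f) hfh h𝒟fin h𝒢pr h𝒟pr hpre (fun D hD => by
    obtain ⟨G, hG, h1, h2, h3⟩ := hdom D hD
    exact ⟨G, hG, h2, h3⟩)
  have hjd : Dense (range j) := by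
    intro x
    obtain ⟨h, -, hne, hev⟩ := hthinj x
    rw [mem_closure_iff_frequently]
    intro hcon
    apply hne
    filter_upwards [hcon, hev] with z hz hz'
    exact hz'.1 hz
  have h1 : Dense {z | f z ∉ ⋃₀ 𝒢} := by
    intro x
    obtain ⟨h, -, hne, hev⟩ := hthin x
    rw [mem_closure_iff_frequently]
    intro hcon
    apply hne
    filter_upwards [hcon, hev] with z hz hz'
    exact hz'.1 (not_not.1 hz)
  have h2 : j '' {z | f z ∉ ⋃₀ 𝒢} = {x : X | ∃ z, j z = x ∧ f z ∉ ⋃₀ 𝒢} := by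
    ext x
    constructor
    · rintro ⟨z, hz, rfl⟩
      exact ⟨z, rfl, hz⟩
    · rintro ⟨z, rfl, hz⟩
      exact ⟨z, hz, rfl⟩
  rw [← h2]
  exact DenseRange.dense_image (f := j) hjd hj₁.continuous h1

theorem sections_const (hT : TensorPart) (hX : XPart) [T2Space X] [CompactSpace X]
    [ConnectedSpace X] {χ : Chart n X → Cm n → Matrix (Fin n) (Fin n) ℂ} (hχ : IsKahler χ)
    {φ : Chart n X → Cm n → ℝ} (hφ : IsCanonicalMetric φ)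
    (hpsd : ∀ e x, At e x → (cHess (φ e) (e x)).PosSemidef)
    {ν : ℕ} (hν : ∀ e x, At e x → (cHess (φ e) (e x)).rank ≤ ν)
    {j : Z → X} (hj : J.IsBigOpen (Cm n) j) {f : Z → Y}
    (hf : ContMDiff 𝓘(ℂ, Cm n) 𝓘(ℂ, Cm p) ω f) {𝒢 : Set (Set Y)}
    (h𝒢 : J.IsDivisorial (Cm n) (Cm p) f 𝒢) {m : ℕ} {k : Set Y → ℕ}
    (hk : ∀ G, (k G : ℝ) ≤ m * J.orbBase' (Cm n) (Cm p) f 0 G) (hkG : ∀ G, k G ≠ 0 → G ∈ 𝒢)
    {σ₀ σ₁ : Y → ℂ}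
    (hσ₀ : J.IsSection (Cm p) (fun (D : Set Y) z g => J.IsLocalEq (Cm p) D g z) m k σ₀)
    (hσ₁ : J.IsSection (Cm p) (fun (D : Set Y) z g => J.IsLocalEq (Cm p) D g z) m k σ₁)
    {z₂ : Z} (hz₂ : f z₂ ∉ ⋃₀ 𝒢) (hsub : Function.Surjective (dM (Cm n) (Cm p) f z₂))
    (h0 : σ₀ (f z₂) ≠ 0) {e : Chart n X} (he : At e (j z₂))
    (hr : (cHess (φ e) (e (j z₂))).rank = ν) {ξ : Cm n}
    (hξ : ∀ i, ∑ l, (dV (Cm n) (fun z => e (j z)) z₂ ξ) l * cHess (φ e) (e (j z₂)) l i = 0) :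
    dif (Cm n) (fun z => σ₁ (f z) / σ₀ (f z)) z₂ ξ = 0 := by
  have hΩ := dense_good hj hf h𝒢
  obtain ⟨q, T, hT0, hTσ⟩ := hT n p X Z Y j hj f hf 𝒢 h𝒢 m k hk hkG
  obtain ⟨τ₀, hτ₀, hτ₀e⟩ := hTσ σ₀ hσ₀
  obtain ⟨τ₁, hτ₁, hτ₁e⟩ := hTσ σ₁ hσ₁
  have hcont : ∀ {τ : Ten n q X}, IsTen q 0 τ → ∀ {e : Chart n X} {x : X}, At e x → ∀ I,
      ContinuousAt (fun y => τ e (e y) I) x := by
    intro τ hτ e x h I
    exact ContinuousAt.comp (g := fun z => τ e z I) (hτ.1 e x h I).continuousAt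
      (e.continuousAt h.2)
  have hprop : ∀ e x, At e x → ∀ I J, τ₀ e (e x) I * τ₁ e (e x) J =
      τ₀ e (e x) J * τ₁ e (e x) I := by
    intro e x h I J
    refine eq_of_dense (x := x) (g := fun y => τ₀ e (e y) I * τ₁ e (e y) J)
      (h := fun y => τ₀ e (e y) J * τ₁ e (e y) I) hΩ
      ((hcont hτ₀ h I).mul (hcont hτ₁ h J)) ((hcont hτ₀ h J).mul (hcont hτ₁ h I)) ?_
    filter_upwards [e.open_source.mem_nhds h.2] with y hy hyΩ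
    obtain ⟨z, rfl, hz⟩ := hyΩ
    rw [hτ₀e e z ⟨h.1, hy⟩ hz, hτ₀e e z ⟨h.1, hy⟩ hz, hτ₁e e z ⟨h.1, hy⟩ hz,
      hτ₁e e z ⟨h.1, hy⟩ hz]
    ring
  obtain ⟨I, hI⟩ := hT0 e z₂ he hsub
  have hI0 : τ₀ e (e (j z₂)) I ≠ 0 := by
    rw [hτ₀e e z₂ he hz₂]
    exact mul_ne_zero h0 hI
  have h1 := hX n q X χ hχ φ hφ hpsd ν hν τ₀ τ₁ hτ₀ hτ₁ hprop e (j z₂) he I hI0 hr _ hξ
  have hjh : ∀ z, HolM (Cm n) (Cm n) j z := fun z => hj.1 z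
  have hfc : Continuous f := hf.continuous
  have hjc : Continuous j := hj.1.continuous
  have h𝒢c : IsClosed (⋃₀ 𝒢) := by
    rw [sUnion_eq_biUnion]
    exact h𝒢.1.isClosed_biUnion fun G hG => (h𝒢.2.1 G hG).1
  have h2 : (fun z => σ₁ (f z) / σ₀ (f z)) =ᶠ[𝓝 z₂]
      fun z => τ₁ e (e (j z)) I / τ₀ e (e (j z)) I := by
    have h3 : ∀ᶠ z in 𝓝 z₂, τ₀ e (e (j z)) I ≠ 0 :=
      (ContinuousAt.comp (g := fun y => τ₀ e (e y) I) (f := j) (hcont hτ₀ he I)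
        hjc.continuousAt).eventually_ne hI0
    filter_upwards [h3, (e.open_source.preimage hjc).mem_nhds he.2,
      (h𝒢c.isOpen_compl.preimage hfc).mem_nhds hz₂] with z h4 h5 h6
    rw [hτ₀e e z ⟨he.1, h5⟩ h6] at h4
    rw [hτ₀e e z ⟨he.1, h5⟩ h6, hτ₁e e z ⟨he.1, h5⟩ h6,
      mul_div_mul_right _ _ (right_ne_zero_of_mul h4)]
  have h3 : dif (Cm n) (fun z => σ₁ (f z) / σ₀ (f z)) z₂ =
      dif (Cm n) (fun z => τ₁ e (e (j z)) I / τ₀ e (e (j z)) I) z₂ := dV_congr h2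
  have h4 : ContDiffAt ℂ ω (fun z => τ₁ e z I / τ₀ e z I) (e (j z₂)) := by
    have h5 : ContDiffAt ℂ ω (fun z => τ₁ e z I) (e (j z₂)) := (hτ₁.1 e _ he I).contDiffAt
    have h6 : ContDiffAt ℂ ω (fun z => τ₀ e z I) (e (j z₂)) := (hτ₀.1 e _ he I).contDiffAt
    exact h5.div h6 hI0
  have h5 := dV_comp_contDiff (G := fun z => τ₁ e z I / τ₀ e z I) (v := fun z => e (j z)) h4
    (holV_ej hjh he)
  rw [h3, dif_eq_dV, h5]
  exact h1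

end Good

end Vale.Agent.P281.H713.SA
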