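import Vale.Agent.P281.H713.SA.T6

/-! P281, theorem SA, main part: linear algebra and density. -/

open scoped Manifold ContDiff Topology ComplexOrder
open Set Filter Metric Vale.Agent.P272.K

noncomputable section

namespace Vale.Agent.P281.H713.SA

open Vale.Agent.P281 Vale.Agent.P281.MF Vale.Agent.P281.ISO

set_option linter.unusedSectionVars false

section Lin

variable {n p : ℕ}

theorem surj_iff_minor (A : Cm n →L[ℂ] Cm p) :
    Function.Surjective A ↔ ∃ K, (mK A K).det ≠ 0 := by
  constructor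
  · intro hA
    obtain ⟨I, hI⟩ := tq_ne_zero 1 hA
    unfold tq at hI
    rw [Finset.prod_ne_zero_iff] at hI
    exact ⟨_, hI 0 (Finset.mem_univ _)⟩
  · rintro ⟨K, hK⟩ y
    have hu : IsUnit (mK A K).det := isUnit_iff_ne_zero.2 hK
    refine ⟨∑ c, ((mK A K)⁻¹.mulVec y) c • Pi.single (K c) 1, ?_⟩
    have h1 : (mK A K).mulVec ((mK A K)⁻¹.mulVec y) = y := by
      rw [Matrix.mulVec_mulVec, Matrix.mul_nonsing_inv _ hu, Matrix.one_mulVec]
    rw [map_sum]
    conv_rhs => rw [← h1]
    funext a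
    rw [Finset.sum_apply]
    simp only [map_smul, Pi.smul_apply, smul_eq_mul, Matrix.mulVec, dotProduct, mK,
      Matrix.of_apply]
    exact Finset.sum_congr rfl fun c _ => mul_comm _ _

/-- the matrix of the values of the covectors `w b` on the vectors `e_{K c}` -/
def mC {r : ℕ} (w : Fin r → (Cm n →L[ℂ] ℂ)) (K : Fin r → Fin n) : Matrix (Fin r) (Fin r) ℂ :=
  Matrix.of fun b c => w b (Pi.single (K c) 1)

theorem li_iff_minor {r : ℕ} (w : Fin r → (Cm n →L[ℂ] ℂ)) :
    LinearIndependent ℂ w ↔ ∃ K, (mC w K).det ≠ 0 := by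
  have h1 : LinearIndependent ℂ w ↔ Function.Surjective (ContinuousLinearMap.pi w) := by
    constructor
    · intro h
      exact JB.surjective_of_linearIndependent h
    · intro h
      exact JB.linearIndependent_of_surjective h
  rw [h1, surj_iff_minor]
  rfl

theorem span_le_of_ker {V : Type*} [NormedAddCommGroup V] [NormedSpace ℂ V] {ι κ : Type*}
    [Finite ι] {α : ι → (V →L[ℂ] ℂ)} {β : κ → (V →L[ℂ] ℂ)}
    (h : ∀ v, (∀ i, α i v = 0) → ∀ k, β k v = 0) :
    Submodule.span ℂ (range β) ≤ Submodule.span ℂ (range α) := by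
  classical
  rw [Submodule.span_le]
  rintro _ ⟨k, rfl⟩
  have h1 : (β k : V →ₗ[ℂ] ℂ) ∈ Submodule.span ℂ (range fun i => (α i : V →ₗ[ℂ] ℂ)) := by
    refine mem_span_of_iInf_ker_le_ker fun v hv => ?_
    rw [Submodule.mem_iInf] at hv
    exact h v (fun i => hv i) k
  have : Fintype ι := Fintype.ofFinite ι
  obtain ⟨c, hc⟩ := (Submodule.mem_span_range_iff_exists_fun ℂ).1 h1
  refine (Submodule.mem_span_range_iff_exists_fun ℂ).2 ⟨c, ?_⟩
  ext v
  have h2 := congrArg (fun T : V →ₗ[ℂ] ℂ => T v) hc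
  simp only [LinearMap.coe_sum, Finset.sum_apply, LinearMap.smul_apply] at h2
  rw [ContinuousLinearMap.sum_apply]
  exact h2

/-- a linearly independent family of covectors vanishing on the common kernel of the `α i` -/
theorem li_card_le {V : Type*} [NormedAddCommGroup V] [NormedSpace ℂ V] [FiniteDimensional ℂ V]
    {ι κ : Type*} [Finite ι] [Fintype κ] {α : ι → (V →L[ℂ] ℂ)} {β : κ → (V →L[ℂ] ℂ)}
    (h : ∀ v, (∀ i, α i v = 0) → ∀ k, β k v = 0) (hβ : LinearIndependent ℂ β) :
    Fintype.card κ ≤ Module.finrank ℂ (Submodule.span ℂ (range α)) := by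
  have h1 := span_le_of_ker h
  have h2 := finrank_span_eq_card hβ
  have : Module.Finite ℂ (Submodule.span ℂ (range α)) :=
    Module.Finite.span_of_finite ℂ (Set.finite_range α)
  rw [← h2]
  exact Submodule.finrank_mono h1

/-- extraction of a linearly independent subfamily -/
theorem exists_li_sub {V : Type*} [NormedAddCommGroup V] [NormedSpace ℂ V]
    {ι : Type*} [Finite ι] {α : ι → (V →L[ℂ] ℂ)} {r : ℕ}
    (hr : r ≤ Module.finrank ℂ (Submodule.span ℂ (range α))) :
    ∃ c : Fin r → ι, LinearIndependent ℂ fun b => α (c b) := by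
  have : Module.Finite ℂ (Submodule.span ℂ (range α)) :=
    Module.Finite.span_of_finite ℂ (Set.finite_range α)
  obtain ⟨f, hf, -, hli⟩ := Submodule.exists_fun_fin_finrank_span_eq ℂ (range α)
  choose c hc using hf
  refine ⟨fun b => c (Fin.castLE hr b), ?_⟩
  have h1 : (fun b : Fin r => α (c (Fin.castLE hr b))) = f ∘ Fin.castLE hr := by
    funext b
    exact hc _
  rw [h1]
  exact hli.comp _ (Fin.castLE_injective hr)

/-- the covectors of a matrix -/
def mcov (θ : Matrix (Fin n) (Fin n) ℂ) (j : Fin n) : Cm n →L[ℂ] ℂ :=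
  ∑ i, θ i j • ContinuousLinearMap.proj (R := ℂ) (φ := fun _ : Fin n => ℂ) i

theorem mcov_apply (θ : Matrix (Fin n) (Fin n) ℂ) (j : Fin n) (v : Cm n) :
    mcov θ j v = ∑ i, v i * θ i j := by
  unfold mcov
  rw [ContinuousLinearMap.sum_apply]
  exact Finset.sum_congr rfl fun i _ => mul_comm _ _

theorem finrank_mcov (θ : Matrix (Fin n) (Fin n) ℂ) :
    Module.finrank ℂ (Submodule.span ℂ (range (mcov θ))) = θ.rank := by
  classical
  rw [Matrix.rank_eq_finrank_span_cols]
  let L : Cm n →ₗ[ℂ] (Cm n →L[ℂ] ℂ) :=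
    { toFun := fun a => ∑ i, a i • ContinuousLinearMap.proj (R := ℂ) (φ := fun _ : Fin n => ℂ) i
      map_add' := by
        intro a b
        ext v
        simp [add_mul, Finset.sum_add_distrib]
      map_smul' := by
        intro c a
        ext v
        simp [Finset.mul_sum, mul_assoc] }
  have hL : Function.Injective L := by
    intro a b hab
    funext i
    have h1 := congrArg (fun T : Cm n →L[ℂ] ℂ => T (Pi.single i 1)) hab
    simp only [L, LinearMap.coe_mk, AddHom.coe_mk, ContinuousLinearMap.sum_apply,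
      ContinuousLinearMap.smul_apply, ContinuousLinearMap.proj_apply, smul_eq_mul,
      Pi.single_apply, mul_ite, mul_one, mul_zero, Finset.sum_ite_eq', Finset.mem_univ,
      ↓reduceIte] at h1
    exact h1
  have h1 : range (mcov θ) = L '' range θ.col := by
    rw [← range_comp]
    rfl
  rw [h1, ← Submodule.map_span]
  exact (LinearEquiv.finrank_eq (Submodule.equivMapOfInjective L hL _)).symm

end Lin

section Dense

variable {E : Type} [NormedAddCommGroup E] [NormedSpace ℂ E] [FiniteDimensional ℂ E]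
variable {X : Type} [TopologicalSpace X] [ChartedSpace E X] [IsManifold 𝓘(ℂ, E) ω X]

/-- identity theorem for families -/
theorem dense_of_fam [PreconnectedSpace X] {ι : Type*} {S : Set X} (hne : S.Nonempty)
    (h : ∀ x, ∃ θ : ι → X → ℂ, (∀ i, HolV E (θ i) x) ∧ ∀ᶠ z in 𝓝 x, z ∈ S ↔ ∃ i, θ i z ≠ 0)
    [Finite ι] : Dense S := by
  have hZ : IsClopen (interior Sᶜ) := by
    refine ⟨?_, isOpen_interior⟩
    refine isClosed_of_closure_subset fun x hx => ?_
    obtain ⟨θ, hθ, hS⟩ := h x
    rw [mem_interior_iff_mem_nhds]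
    have h1 : ∀ i, ∀ᶠ z in 𝓝 x, θ i z = 0 := by
      intro i
      by_contra hne0
      have h2 := ne_frequently (hθ i) hne0
      have h3 : ∃ᶠ y in 𝓝 x, y ∈ interior Sᶜ := mem_closure_iff_frequently.1 hx
      obtain ⟨y, hy1, hy2, hy3⟩ := (h3.and_eventually (h2.and hS.eventually_nhds)).exists
      have h5 : ∀ᶠ z in 𝓝 y, z ∈ interior Sᶜ := isOpen_interior.mem_nhds hy1
      obtain ⟨z, hz1, hz2, hz3⟩ := (hy2.and_eventually (h5.and hy3)).exists
      exact interior_subset hz2 (hz3.2 ⟨i, hz1⟩)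
    filter_upwards [hS, eventually_all.2 h1] with z h2 h3 h4
    obtain ⟨i, hi⟩ := h2.1 h4
    exact hi (h3 i)
  rcases isClopen_iff.1 hZ with h0 | h1
  · rwa [interior_eq_empty_iff_dense_compl, compl_compl] at h0
  · exfalso
    obtain ⟨x, hx⟩ := hne
    have : x ∈ interior Sᶜ := by rw [h1]; trivial
    exact (interior_subset this) hx

end Dense

end Vale.Agent.P281.H713.SA
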