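import Vale.Agent.P281.H713.SA.G1
import Vale.Agent.P281.ISO.SymP515

/-! P281, theorem SA, main part: ratios of sections; proportional tensors. -/

open scoped Manifold ContDiff Topology ComplexOrder
open Set Filter Metric Vale.Agent.P272.K

noncomputable section

namespace Vale.Agent.P281.H713.SA

open Vale.Agent.P281 Vale.Agent.P281.MF Vale.Agent.P281.ISO Vale.Agent.P299.D

set_option linter.unusedSectionVars false

section Chart

variable {n : ℕ} {X : Type} [TopologicalSpace X] [ChartedSpace (Cm n) X]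
  [IsManifold 𝓘(ℂ, Cm n) ω X]

theorem contDiffAt_symm {e : Chart n X} {x : X} (h : At e x) {V : Type*} [NormedAddCommGroup V]
    [NormedSpace ℂ V] {g : X → V} (hg : HolV (Cm n) g x) :
    ContDiffAt ℂ ω (fun z => g (e.symm z)) (e x) := by
  have hmem : e ∈ IsManifold.maximalAtlas 𝓘(ℂ, Cm n) ω X := IsManifold.subset_maximalAtlas h.1
  have h2 : ContMDiffAt 𝓘(ℂ, Cm n) 𝓘(ℂ, Cm n) ω e.symm (e x) :=
    contMDiffAt_symm_of_mem_maximalAtlas hmem (e.map_source h.2)
  have h3 : ContMDiffAt 𝓘(ℂ, Cm n) 𝓘(ℂ, V) ω (fun z => g (e.symm z)) (e x) := by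
    refine ContMDiffAt.comp (I' := 𝓘(ℂ, Cm n)) (g := g) (e x) ?_ h2
    rw [e.left_inv h.2]
    exact hg
  exact contMDiffAt_iff_contDiffAt.1 h3

theorem dV_at {e : Chart n X} {x : X} (h : At e x) {V : Type*} [NormedAddCommGroup V]
    [NormedSpace ℂ V] {g : X → V} (hg : HolV (Cm n) g x) :
    dV (Cm n) g x = (fderiv ℂ (fun z => g (e.symm z)) (e x)).comp
      (dV (Cm n) (e : X → Cm n) x) := by
  have h1 := dV_comp_contDiff (G := fun z => g (e.symm z)) (v := (e : X → Cm n))
    (contDiffAt_symm h hg) (holV_at h)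
  rw [← h1]
  refine (Filter.EventuallyEq.mfderiv_eq ?_)
  filter_upwards [e.open_source.mem_nhds h.2] with y hy
  rw [e.left_inv hy]

/-- kernels in the chart -/
theorem dV_at_ker {e : Chart n X} {x : X} (h : At e x) {g : X → ℂ} (hg : HolV (Cm n) g x)
    (ξ : Cm n) : dif (Cm n) g x ξ =
      fderiv ℂ (fun z => g (e.symm z)) (e x) (dV (Cm n) (e : X → Cm n) x ξ) := by
  rw [dif_eq_dV, dV_at h hg]
  rfl

end Chart

section Sect

variable {n : ℕ} {X : Type} [TopologicalSpace X] [ChartedSpace (Cm n) X]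
  [IsManifold 𝓘(ℂ, Cm n) ω X]

/-- the good points of a family of sections -/
def Ind {j : ℕ} (κ : Set X → ℕ) (s : Fin (j + 1) → X → ℂ) : Set X :=
  {z | (∀ C, κ C ≠ 0 → z ∉ C) ∧ s 0 z ≠ 0 ∧
    LinearIndependent ℂ (fun b : Fin j => dif (Cm n) (fun w => s b.succ w / s 0 w) z)}

/-- the numerator of `d(a / b)` in the chart at `x` -/
def numer (a b : X → ℂ) (x z : X) : Cm n →L[ℂ] ℂ :=
  b z • fderiv ℂ (a ∘ (chartAt (Cm n) x).symm) (chartAt (Cm n) x z) -
    a z • fderiv ℂ (b ∘ (chartAt (Cm n) x).symm) (chartAt (Cm n) x z)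

theorem holV_numer {a b : X → ℂ} {x : X} (ha : HolV (Cm n) a x) (hb : HolV (Cm n) b x) :
    HolV (Cm n) (numer (n := n) a b x) x := by
  have hx : x ∈ (chartAt (Cm n) x).source := mem_chart_source (Cm n) x
  have h1 := HolV.smul hb (holV_fderiv hx ha)
  have h2 := HolV.smul ha (holV_fderiv hx hb)
  exact HolV.of_rep hx ((h1.rep hx).sub (h2.rep hx))

theorem fderiv_div' {V : Type*} [NormedAddCommGroup V] [NormedSpace ℂ V] {a b : V → ℂ} {v : V}
    (ha : DifferentiableAt ℂ a v) (hb : DifferentiableAt ℂ b v) (h0 : b v ≠ 0) :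
    fderiv ℂ (fun w => a w / b w) v =
      (b v ^ 2)⁻¹ • (b v • fderiv ℂ a v - a v • fderiv ℂ b v) := by
  have h1 : HasFDerivAt (fun w => (b w)⁻¹) (-(b v ^ 2)⁻¹ • fderiv ℂ b v) v :=
    (hasDerivAt_inv h0).comp_hasFDerivAt v hb.hasFDerivAt
  have h2 := ha.hasFDerivAt.mul h1
  have h3 : (fun w => a w / b w) = fun w => a w * (b w)⁻¹ := by
    funext w
    exact div_eq_mul_inv _ _
  rw [h3]
  refine h2.fderiv.trans ?_
  ext u
  simp only [ContinuousLinearMap.add_apply, ContinuousLinearMap.smul_apply,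
    ContinuousLinearMap.sub_apply, smul_eq_mul]
  field_simp
  ring

theorem dif_div_eq {a b : X → ℂ} {x z : X} (hz : z ∈ (chartAt (Cm n) x).source)
    (ha : HolV (Cm n) a z) (hb : HolV (Cm n) b z) (h0 : b z ≠ 0) :
    dif (Cm n) (fun w => a w / b w) z = ((b z ^ 2)⁻¹ • numer (n := n) a b x z).comp
      (dV (Cm n) (chartAt (Cm n) x : X → Cm n) z) := by
  have h1 := dV_eq_chart hz (ha.div hb h0)
  rw [dif_eq_dV, h1]
  congr 1
  have hda : DifferentiableAt ℂ (a ∘ (chartAt (Cm n) x).symm) (chartAt (Cm n) x z) :=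
    (ha.rep hz).differentiableAt (by simp)
  have hdb : DifferentiableAt ℂ (b ∘ (chartAt (Cm n) x).symm) (chartAt (Cm n) x z) :=
    (hb.rep hz).differentiableAt (by simp)
  have hbz : (b ∘ (chartAt (Cm n) x).symm) (chartAt (Cm n) x z) = b z := by
    simp [(chartAt (Cm n) x).left_inv hz]
  have haz : (a ∘ (chartAt (Cm n) x).symm) (chartAt (Cm n) x z) = a z := by
    simp [(chartAt (Cm n) x).left_inv hz]
  have h2 : ((fun w => a w / b w) ∘ (chartAt (Cm n) x).symm) = fun w =>
      (a ∘ (chartAt (Cm n) x).symm) w / (b ∘ (chartAt (Cm n) x).symm) w := rfl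
  rw [h2, fderiv_div' hda hdb (by rw [hbz]; exact h0), haz, hbz]
  rfl

theorem li_comp_unit {V : Type*} [NormedAddCommGroup V] [NormedSpace ℂ V] {r : ℕ}
    {w : Fin r → (V →L[ℂ] ℂ)} {P : V →L[ℂ] V} (hP : IsUnit P) :
    LinearIndependent ℂ (fun b => (w b).comp P) ↔ LinearIndependent ℂ w := by
  rw [Fintype.linearIndependent_iff, Fintype.linearIndependent_iff]
  obtain ⟨u, rfl⟩ := hP
  refine forall_congr' fun g => ?_
  have h1 : (∑ b, g b • (w b).comp (u : V →L[ℂ] V)) = (∑ b, g b • w b).comp (u : V →L[ℂ] V) := by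
    ext v
    simp [ContinuousLinearMap.sum_apply]
  rw [h1]
  have h2 : (∑ b, g b • w b).comp (u : V →L[ℂ] V) = 0 ↔ (∑ b, g b • w b) = 0 := by
    constructor
    · intro h
      have h3 := congrArg (fun T : V →L[ℂ] ℂ => T.comp ((u⁻¹ : (V →L[ℂ] V)ˣ) : V →L[ℂ] V)) h
      simp only [ContinuousLinearMap.comp_assoc, ContinuousLinearMap.zero_comp] at h3
      have h4 : ((u : V →L[ℂ] V).comp ((u⁻¹ : (V →L[ℂ] V)ˣ) : V →L[ℂ] V)) =
        ContinuousLinearMap.id ℂ V := u.mul_inv
      rwa [h4, ContinuousLinearMap.comp_id] at h3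
    · intro h
      rw [h, ContinuousLinearMap.zero_comp]
  rw [h2]

theorem li_smul {V : Type*} [NormedAddCommGroup V] [NormedSpace ℂ V] {r : ℕ}
    {w : Fin r → (V →L[ℂ] ℂ)} {c : ℂ} (hc : c ≠ 0) :
    LinearIndependent ℂ (fun b => c • w b) ↔ LinearIndependent ℂ w := by
  constructor
  · intro h
    have h2 := h.units_smul (fun _ => (Units.mk0 c hc)⁻¹)
    have h3 : ((fun _ : Fin r => (Units.mk0 c hc)⁻¹) • fun b => c • w b) = w := by
      funext b
      show (Units.mk0 c hc)⁻¹ • (c • w b) = w b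
      rw [Units.smul_def, smul_smul]
      simp [hc]
    rwa [h3] at h2
  · intro h
    exact h.units_smul (fun _ => Units.mk0 c hc)

theorem ind_open_dense [PreconnectedSpace X] {j m : ℕ} {κ : Set X → ℕ}
    (hfin : {C | κ C ≠ 0}.Finite) (hpr : ∀ C, κ C ≠ 0 → IsPrimeDivisor (Cm n) C)
    {s : Fin (j + 1) → X → ℂ}
    (hs : ∀ b, IsSection (Cm n) (fun (C : Set X) p g => IsLocalEq (Cm n) C g p) m κ (s b))
    (hne : (Ind (n := n) κ s).Nonempty) :
    IsOpen (Ind (n := n) κ s) ∧ Dense (Ind (n := n) κ s) := by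
  classical
  refine ⟨?_, ?_⟩
  · rw [isOpen_iff_mem_nhds]
    rintro p ⟨h1, h2, h3⟩
    have hS : ∀ b, SecAt (E₀ := Cm n) m (s b) p := fun b => secAt_of hpr (hs b) h1
    filter_upwards [(isOpen_off hfin hpr).1.mem_nhds h1, (hS 0).ev_ne h2,
      linearIndependent_dif_eventually (fun b : Fin j => (hS b.succ).div_holV (hS 0) h2) h3]
      with w h4 h5 h6
    exact ⟨h4, h5, h6⟩
  · refine dense_of_fam (E := Cm n) (ι := Fin j → Fin n) hne fun x => ?_
    obtain ⟨T, g, hT, hg⟩ := common_eqs hfin hpr x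
    choose A hA hAe using fun b => sec_common (hs b) hT hg
    have hge : ∀ᶠ z in 𝓝 x, ∀ C ∈ T, IsLocalEq (Cm n) C (g C) z := by
      rw [Filter.eventually_all_finset]
      exact fun C hC => (hg C hC).eventually
    refine ⟨fun K z => (∏ C ∈ T, g C z) * A 0 z *
      (mC (fun b : Fin j => numer (n := n) (A b.succ) (A 0) x z) K).det, fun K => ?_, ?_⟩
    · refine HolV.mul (HolV.mul (HolV.prod fun C hC => (hg C hC).holAt) (hA 0)) ?_
      have h1 : ∀ (b c : Fin j), HolV (Cm n)
          (fun z => numer (n := n) (A b.succ) (A 0) x z (Pi.single (K c) 1)) x := fun b c =>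
        HolV.comp_contDiff (G := fun l : Cm n →L[ℂ] ℂ => l (Pi.single (K c) 1))
          (ContinuousLinearMap.apply ℂ ℂ (Pi.single (K c) (1 : ℂ) : Cm n)).contDiff.contDiffAt
          (holV_numer (hA b.succ) (hA 0))
      have h2 : (fun z => (mC (fun b : Fin j => numer (n := n) (A b.succ) (A 0) x z) K).det) =
          fun z => ∑ σ : Equiv.Perm (Fin j), ((Equiv.Perm.sign σ : ℤ) : ℂ) *
            ∏ i, numer (n := n) (A (σ i).succ) (A 0) x z (Pi.single (K i) 1) := by
        funext z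
        rw [Matrix.det_apply']
        rfl
      rw [h2]
      exact HolV.sum fun σ _ => HolV.mul (HolV.const _ _) (HolV.prod fun i _ => h1 (σ i) i)
    · filter_upwards [eventually_all.2 hAe, hge, eventually_all.2 fun b => (hA b).eventually,
        (eventually_all.2 hAe).eventually_nhds, (jac_ne_ev (E₀ := Cm n) x m).eventually_nhds,
        (chartAt (Cm n) x).open_source.mem_nhds (mem_chart_source (Cm n) x), hge.eventually_nhds]
        with z h1 h2 h3 h4 h5 h6 h2n
      have h7 : (∀ C, κ C ≠ 0 → z ∉ C) ↔ ∏ C ∈ T, g C z ≠ 0 := by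
        rw [Finset.prod_ne_zero_iff]
        constructor
        · intro h C hC h5
          exact h C ((hT C).2 hC) ((h2 C hC).mem_iff.2 h5)
        · intro h C hC h5
          exact h C ((hT C).1 hC) ((h2 C ((hT C).1 hC)).mem_iff.1 h5)
      by_cases hg0 : ∏ C ∈ T, g C z = 0
      · constructor
        · rintro ⟨h8, -⟩
          exact absurd hg0 (h7.1 h8)
        · rintro ⟨K, hK⟩
          rw [hg0, zero_mul, zero_mul] at hK
          exact absurd rfl hK
      have hQ : ∏ C ∈ T, g C z ^ κ C ≠ 0 := by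
        refine Finset.prod_ne_zero_iff.2 fun C hC => pow_ne_zero _ ?_
        exact Finset.prod_ne_zero_iff.1 hg0 C hC
      have h0 : s 0 z ≠ 0 ↔ A 0 z ≠ 0 := by
        have h8 := h1 0 hg0
        constructor
        · intro h9 h10
          rw [h10, zero_mul] at h8
          exact (mul_ne_zero h9 hQ) h8
        · intro h9 h10
          rw [h10, zero_mul] at h8
          exact (mul_ne_zero h9 (h5.self_of_nhds)) h8.symm
      by_cases hA0 : A 0 z = 0
      · constructor
        · rintro ⟨-, h8, -⟩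
          exact absurd hA0 (h0.1 h8)
        · rintro ⟨K, hK⟩
          rw [hA0, mul_zero, zero_mul] at hK
          exact absurd rfl hK
      have hgev : ∀ᶠ w in 𝓝 z, ∏ C ∈ T, g C w ≠ 0 := by
        have h8 : HolV (Cm n) (fun w => ∏ C ∈ T, g C w) z :=
          HolV.prod fun C hC => (h2 C hC).holAt
        exact h8.continuousAt.eventually_ne hg0
      have hrat : ∀ b : Fin j, (fun w => s b.succ w / s 0 w) =ᶠ[𝓝 z]
          fun w => A b.succ w / A 0 w := by
        intro b
        filter_upwards [h4, hgev, h5] with w h8 h9 h10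
        have hQw : ∏ C ∈ T, g C w ^ κ C ≠ 0 := by
          refine Finset.prod_ne_zero_iff.2 fun C hC => pow_ne_zero _ ?_
          exact Finset.prod_ne_zero_iff.1 h9 C hC
        rw [← mul_div_mul_right (s b.succ w) (s 0 w) hQw, h8 b.succ h9, h8 0 h9,
          mul_div_mul_right _ _ h10]
      have hdif : (fun b : Fin j => dif (Cm n) (fun w => s b.succ w / s 0 w) z) =
          fun b : Fin j => (((A 0 z ^ 2)⁻¹ • numer (n := n) (A b.succ) (A 0) x z).comp
            (dV (Cm n) (chartAt (Cm n) x : X → Cm n) z)) := by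
        funext b
        have h8 : dif (Cm n) (fun w => s b.succ w / s 0 w) z =
            dif (Cm n) (fun w => A b.succ w / A 0 w) z := dV_congr (hrat b)
        rw [h8]
        exact dif_div_eq h6 (h3 b.succ) (h3 0) hA0
      have hli : LinearIndependent ℂ
          (fun b : Fin j => dif (Cm n) (fun w => s b.succ w / s 0 w) z) ↔
          ∃ K, (mC (fun b : Fin j => numer (n := n) (A b.succ) (A 0) x z) K).det ≠ 0 := by
        rw [hdif, li_comp_unit (isUnit_dV_chart h6),
          li_smul (inv_ne_zero (pow_ne_zero 2 hA0)), li_iff_minor]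
      constructor
      · rintro ⟨-, -, h10⟩
        obtain ⟨K, hK⟩ := hli.1 h10
        exact ⟨K, mul_ne_zero (mul_ne_zero hg0 hA0) hK⟩
      · rintro ⟨K, hK⟩
        exact ⟨h7.2 hg0, h0.2 hA0, hli.2 ⟨K, right_ne_zero_of_mul hK⟩⟩

end Sect

end Vale.Agent.P281.H713.SA
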