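import Vale.Agent.P281.H713.SA.G3

/-! P281, theorem SA, main part: the rank of the semiample metric. -/

open scoped Manifold ContDiff Topology ComplexOrder
open Set Filter Metric Vale.Agent.P281.J Vale.Agent.P272.K

noncomputable section

namespace Vale.Agent.P281.H713.SA

open Vale.Agent.P281 Vale.Agent.P281.MF Vale.Agent.P281.ISO Vale.Agent.P299.D

set_option linter.unusedSectionVars false

section Rank

variable {n : ℕ} {X : Type} [TopologicalSpace X] [ChartedSpace (Cm n) X]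
  [IsManifold 𝓘(ℂ, Cm n) ω X]

theorem zero_poles (C : Set X) (h : (0 : Set X → ℕ) C ≠ 0) : False := h rfl

theorem secAt_pluri {m : ℕ} {s : X → ℂ} (hs : IsPluri (n := n) m s) (x : X) :
    SecAt (E₀ := Cm n) m s x :=
  secAt_of (κ := 0) (fun C hC => (zero_poles C hC).elim) hs fun C hC => (zero_poles C hC).elim

/-- the covectors `d(s b / s b₀)` -/
def al {N : ℕ} (s : Fin N → X → ℂ) (b₀ : Fin N) (x : X) (b : Fin N) : Cm n →L[ℂ] ℂ :=
  dif (Cm n) (fun w => s b w / s b₀ w) x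

theorem al_apply {m N : ℕ} {s : Fin N → X → ℂ} (hs : ∀ b, IsPluri (n := n) m (s b)) {b₀ : Fin N}
    {e : Chart n X} {x : X} (he : At e x) (h0 : s b₀ x ≠ 0) (b : Fin N) (ξ : Cm n) :
    al s b₀ x b ξ = fderiv ℂ (fun z => s b (e.symm z) / s b₀ (e.symm z)) (e x)
      (dV (Cm n) (e : X → Cm n) x ξ) :=
  dV_at_ker he ((secAt_pluri (hs b) x).div_holV (secAt_pluri (hs b₀) x) h0) ξ

theorem finrank_span_comp {V : Type*} [NormedAddCommGroup V] [NormedSpace ℂ V] {ι : Type*}
    (w : ι → (V →L[ℂ] ℂ)) {P : V →L[ℂ] V} (hP : Function.Surjective P) :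
    Module.finrank ℂ (Submodule.span ℂ (range fun b => (w b).comp P)) =
      Module.finrank ℂ (Submodule.span ℂ (range w)) := by
  let L : (V →L[ℂ] ℂ) →ₗ[ℂ] (V →L[ℂ] ℂ) :=
    { toFun := fun a => a.comp P
      map_add' := by
        intro a b
        ext v
        simp
      map_smul' := by
        intro c a
        ext v
        simp }
  have hL : Function.Injective L := by
    intro a b hab
    ext v
    obtain ⟨u, rfl⟩ := hP v
    exact congrArg (fun T : V →L[ℂ] ℂ => T u) hab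
  have h1 : (range fun b => (w b).comp P) = L '' range w := by
    rw [← range_comp]
    rfl
  rw [h1, ← Submodule.map_span]
  exact (LinearEquiv.finrank_eq (Submodule.equivMapOfInjective L hL _)).symm

theorem surj_of_isUnit {V : Type*} [NormedAddCommGroup V] [NormedSpace ℂ V] {P : V →L[ℂ] V}
    (hP : IsUnit P) : Function.Surjective P := by
  obtain ⟨u, rfl⟩ := hP
  intro v
  refine ⟨((u⁻¹ : (V →L[ℂ] V)ˣ) : V →L[ℂ] V) v, ?_⟩
  have h4 : ((u : V →L[ℂ] V).comp ((u⁻¹ : (V →L[ℂ] V)ˣ) : V →L[ℂ] V)) =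
    ContinuousLinearMap.id ℂ V := u.mul_inv
  exact congrArg (fun T : V →L[ℂ] V => T v) h4

variable {m N : ℕ} {s : Fin N → X → ℂ} (hs : ∀ b, IsPluri (n := n) m (s b))
  {φ : Chart n X → Cm n → ℝ}
  (hker : ∀ e x, At e x → ∀ b₀, s b₀ x ≠ 0 → ∀ v : Cm n,
      (∀ j, ∑ i, v i * cHess (φ e) (e x) i j = 0) ↔
        ∀ b, fderiv ℂ (fun z => s b (e.symm z) / s b₀ (e.symm z)) (e x) v = 0)

include hs hker in
theorem rank_eq {e : Chart n X} {x : X} (he : At e x) {b₀ : Fin N} (h0 : s b₀ x ≠ 0) :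
    (cHess (φ e) (e x)).rank = Module.finrank ℂ (Submodule.span ℂ (range (al (n := n) s b₀ x))) := by
  have h1 : Submodule.span ℂ (range (mcov (cHess (φ e) (e x)))) = Submodule.span ℂ (range fun b =>
      fderiv ℂ (fun z => s b (e.symm z) / s b₀ (e.symm z)) (e x)) := by
    apply le_antisymm
    · refine span_le_of_ker fun v hv j => ?_
      rw [mcov_apply]
      exact (hker e x he b₀ h0 v).2 hv j
    · refine span_le_of_ker fun v hv b => ?_
      refine (hker e x he b₀ h0 v).1 (fun j => ?_) b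
      rw [← mcov_apply]
      exact hv j
  have h2 : al (n := n) s b₀ x = fun b =>
      (fderiv ℂ (fun z => s b (e.symm z) / s b₀ (e.symm z)) (e x)).comp
        (dV (Cm n) (e : X → Cm n) x) := by
    funext b
    ext ξ
    exact al_apply hs he h0 b ξ
  rw [← finrank_mcov, h1, h2, finrank_span_comp _ (surj_of_isUnit (isUnit_at he))]

include hs hker in
/-- the set of the points where the rank is maximal -/
theorem exists_max [Nonempty X] [PreconnectedSpace X] (hgen : ∀ x, ∃ b, s b x ≠ 0) :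
    ∃ (ν : ℕ) (R : Set X), IsOpen R ∧ Dense R ∧
      (∀ e x, At e x → (cHess (φ e) (e x)).rank ≤ ν) ∧
      ∀ e x, At e x → x ∈ R → (cHess (φ e) (e x)).rank = ν := by
  classical
  set P : ℕ → Prop := fun r => ∃ e x, At (n := n) (X := X) e x ∧ (cHess (φ e) (e x)).rank = r
    with hP
  have hPn : ∀ r, P r → r ≤ n := by
    rintro r ⟨e, x, -, rfl⟩
    simpa using Matrix.rank_le_card_width (cHess (φ e) (e x))
  obtain ⟨x₀⟩ := ‹Nonempty X›
  have hPex : P (cHess (φ (chartAt (Cm n) x₀)) (chartAt (Cm n) x₀ x₀)).rank :=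
    ⟨_, _, ⟨chart_mem_atlas (Cm n) x₀, mem_chart_source (Cm n) x₀⟩, rfl⟩
  set ν := Nat.findGreatest P n with hν
  have hPν : P ν := Nat.findGreatest_spec (hPn _ hPex) hPex
  have hmax : ∀ e x, At (n := n) (X := X) e x → (cHess (φ e) (e x)).rank ≤ ν := fun e x h =>
    Nat.le_findGreatest (hPn _ ⟨e, x, h, rfl⟩) ⟨e, x, h, rfl⟩
  obtain ⟨e, x, he, hr⟩ := hPν
  obtain ⟨b₀, h0⟩ := hgen x
  rw [rank_eq hs hker he h0] at hr
  obtain ⟨c, hc⟩ := exists_li_sub (α := al (n := n) s b₀ x) (r := ν) hr.ge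
  set s' : Fin (ν + 1) → X → ℂ := Fin.cons (s b₀) fun b => s (c b) with hs'
  have hs'0 : s' 0 = s b₀ := rfl
  have hs's : ∀ b : Fin ν, s' b.succ = s (c b) := fun b => rfl
  have hsec : ∀ b, IsPluri (n := n) m (s' b) := by
    intro b
    refine Fin.cases ?_ (fun b => ?_) b
    · exact hs b₀
    · exact hs (c b)
  have hod := ind_open_dense (n := n) (κ := 0) (s := s')
    (by simp) (fun C hC => (zero_poles C hC).elim) hsec
    ⟨x, fun C hC => (zero_poles C hC).elim, h0, hc⟩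
  refine ⟨ν, _, hod.1, hod.2, hmax, ?_⟩
  rintro e' x' he' ⟨-, h1, h2⟩
  refine le_antisymm (hmax e' x' he') ?_
  rw [rank_eq hs hker he' (b₀ := b₀) h1]
  have h3 := li_card_le (α := al (n := n) s b₀ x') (β := fun b : Fin ν => al (n := n) s b₀ x' (c b))
    (fun v hv b => hv (c b)) h2
  simpa using h3

end Rank

theorem isBigOpen_id (n : ℕ) (X : Type) [TopologicalSpace X] [ChartedSpace (Cm n) X] :
    J.IsBigOpen (Cm n) (id : X → X) := by
  refine ⟨contMDiff_id, Topology.IsOpenEmbedding.id, fun z => ?_, fun x => ⟨fun _ => 1, ?_, ?_, ?_⟩⟩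
  · rw [mfderiv_id]
    exact fun a b h => h
  · exact contMDiffAt_const
  · intro h
    exact one_ne_zero h.self_of_nhds
  · exact Eventually.of_forall fun z => ⟨fun h => (h (mem_range_self z)).elim,
      fun h => (one_ne_zero h).elim⟩

theorem isDivisorial_id (n : ℕ) (X : Type) [TopologicalSpace X] [ChartedSpace (Cm n) X] :
    J.IsDivisorial (Cm n) (Cm n) (id : X → X) ∅ :=
  ⟨Set.finite_empty, fun G hG => hG.elim, ∅, Set.finite_empty, by simp, fun D hD => hD.elim⟩

/-- the Kodaira dimension is computed by the sections generating `m K_X` -/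
theorem semiample_kod (hT : TensorPart) (hX : XPart) (hM : MetricPart) {n : ℕ} {X : Type}
    [TopologicalSpace X] [ChartedSpace (Cm n) X] [IsManifold 𝓘(ℂ, Cm n) ω X] [T2Space X]
    [CompactSpace X] [ConnectedSpace X] {χ : Chart n X → Cm n → Matrix (Fin n) (Fin n) ℂ}
    (hχ : IsKahler χ) {m N : ℕ} (hm : 0 < m) {s : Fin N → X → ℂ}
    (hs : ∀ b, IsPluri (n := n) m (s b)) (hgen : ∀ x, ∃ b, s b x ≠ 0) {m₁ j : ℕ}
    {t : Fin (j + 1) → X → ℂ} (ht : ∀ b, IsPluri (n := n) m₁ (t b))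
    (hne : (Ind (n := n) 0 t).Nonempty) :
    ∃ (x : X) (b₀ : Fin N) (c : Fin j → Fin N), s b₀ x ≠ 0 ∧
      LinearIndependent ℂ fun b => al (n := n) s b₀ x (c b) := by
  obtain ⟨φ, hφ, hpsd, hker⟩ := hM n X m N hm s hs hgen
  obtain ⟨ν, R, hRo, hRd, hmax, hR⟩ := exists_max hs hker hgen
  have hod := ind_open_dense (n := n) (κ := 0) (s := t)
    (by simp) (fun C hC => (zero_poles C hC).elim) ht hne
  obtain ⟨x, hxR, hxI⟩ := hod.2.inter_open_nonempty R hRo hRd.nonempty
  obtain ⟨b₀, h0⟩ := hgen x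
  have he : At (chartAt (Cm n) x) x := ⟨chart_mem_atlas (Cm n) x, mem_chart_source (Cm n) x⟩
  have hkey : ∀ v, (∀ b, al (n := n) s b₀ x b v = 0) → ∀ b : Fin j,
      dif (Cm n) (fun w => t b.succ w / t 0 w) x v = 0 := by
    intro v hv b
    refine sections_const (Z := X) (Y := X) (j := id) (f := id) (𝒢 := ∅) (m := m₁) (k := 0)
      (σ₀ := t 0) (σ₁ := t b.succ) (z₂ := x) (e := chartAt (Cm n) x) hT hX hχ hφ hpsd hmax
      (isBigOpen_id n X) contMDiff_id (isDivisorial_id n X) ?_ (fun G hG => (hG rfl).elim)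
      (ht 0) (ht b.succ) ?_ ?_ hxI.2.1 he (hR _ _ he hxR) ?_
    · intro G
      simp only [Pi.zero_apply, Nat.cast_zero]
      exact mul_nonneg (Nat.cast_nonneg _) (orbBase'_nonneg G)
    · simp
    · intro w
      refine ⟨w, ?_⟩
      show mfderiv 𝓘(ℂ, Cm n) 𝓘(ℂ, Cm n) id x w = w
      rw [mfderiv_id]
      rfl
    · refine (hker _ _ he b₀ h0 _).2 fun b => ?_
      rw [← hv b, al_apply hs he h0 b v]
      rfl
  have h1 := li_card_le (α := al (n := n) s b₀ x) hkey hxI.2.2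
  rw [Fintype.card_fin] at h1
  obtain ⟨c, hc⟩ := exists_li_sub h1
  exact ⟨x, b₀, c, h0, hc⟩

end Vale.Agent.P281.H713.SA
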