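import Vale.Agent.P281.H713.SA.Iface
import Vale.Agent.P281.ISO.Lift
import Vale.Agent.P281.ISO.Num
import Vale.Agent.P281.ISO.Emb124

/-! P281, theorem SA, block T: tensors attached to pluricanonical forms (linear algebra). -/

open scoped Manifold ContDiff Topology ComplexOrder
open Set Filter Vale.Agent.P272.K

noncomputable section

namespace Vale.Agent.P281.H713.SA

open Vale.Agent.P281 Vale.Agent.P281.MF Vale.Agent.P299.D

variable {n p : ℕ}

/-- the matrix of the vectors `A e_{K c}` -/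
def mK (A : Cm n →L[ℂ] Cm p) (K : Fin p → Fin n) : Matrix (Fin p) (Fin p) ℂ :=
  Matrix.of fun a c => A (Pi.single (K c) 1) a

/-- the value of `A^*(dy_1 ∧ … ∧ dy_p)^{⊗ m}` on the vectors `e_I` -/
def tq (m : ℕ) (A : Cm n →L[ℂ] Cm p) (I : Fin (m * p) → Fin n) : ℂ :=
  ∏ r : Fin m, (mK A fun c => I (finProdFinEquiv (r, c))).det

theorem mK_comp_left (S : Cm p →L[ℂ] Cm p) (A : Cm n →L[ℂ] Cm p) (K : Fin p → Fin n) :
    mK (S.comp A) K = LinearMap.toMatrix' (S : Cm p →ₗ[ℂ] Cm p) * mK A K := by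
  ext a c
  have h := congrFun (LinearMap.toMatrix'_mulVec (S : Cm p →ₗ[ℂ] Cm p) (A (Pi.single (K c) 1))) a
  rw [Matrix.mul_apply]
  simp only [mK, Matrix.of_apply, ContinuousLinearMap.comp_apply]
  exact h.symm

theorem det_toMatrix' (S : Cm p →L[ℂ] Cm p) :
    (LinearMap.toMatrix' (S : Cm p →ₗ[ℂ] Cm p)).det = S.det := by
  rw [LinearMap.det_toMatrix']

theorem tq_comp_left (m : ℕ) (S : Cm p →L[ℂ] Cm p) (A : Cm n →L[ℂ] Cm p)
    (I : Fin (m * p) → Fin n) : tq m (S.comp A) I = S.det ^ m * tq m A I := by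
  unfold tq
  simp only [mK_comp_left, Matrix.det_mul, det_toMatrix', Finset.prod_mul_distrib,
    Finset.prod_const, Finset.card_univ, Fintype.card_fin]

/-- multilinearity of the determinant -/
theorem det_mK_comp_right (A : Cm n →L[ℂ] Cm p) {n' : ℕ} (B : Cm n' →L[ℂ] Cm n)
    (K : Fin p → Fin n') : (mK (A.comp B) K).det =
      ∑ L : Fin p → Fin n, (∏ c, B (Pi.single (K c) 1) (L c)) * (mK A L).det := by
  have h1 : (mK (A.comp B) K).det = Matrix.detRowAlternating fun c : Fin p =>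
      ∑ l : Fin n, B (Pi.single (K c) 1) l • A (Pi.single l 1) := by
    rw [← Matrix.det_transpose]
    show Matrix.det _ = Matrix.det _
    congr 1
    ext c a
    have h2 : B (Pi.single (K c) 1) = ∑ l : Fin n, B (Pi.single (K c) 1) l • Pi.single l (1 : ℂ) := by
      funext i
      simp [Finset.sum_apply, Pi.single_apply]
    simp only [Matrix.transpose_apply, mK, Matrix.of_apply, ContinuousLinearMap.comp_apply]
    conv_lhs => rw [h2]
    rw [map_sum]
    simp only [map_smul]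
  have h3 := (Matrix.detRowAlternating (n := Fin p) (R := ℂ)).toMultilinearMap.map_sum
    (fun (c : Fin p) (l : Fin n) => B (Pi.single (K c) 1) l • A (Pi.single l 1))
  rw [h1]
  refine h3.trans (Finset.sum_congr rfl fun L _ => ?_)
  rw [MultilinearMap.map_smul_univ, smul_eq_mul]
  congr 1
  show Matrix.det _ = _
  rw [← Matrix.det_transpose]
  rfl

/-- the index equivalence -/
def eqI (m p n : ℕ) : (Fin m → Fin p → Fin n) ≃ (Fin (m * p) → Fin n) :=
  (Equiv.curry (Fin m) (Fin p) (Fin n)).symm.trans (Equiv.arrowCongr finProdFinEquiv (Equiv.refl _))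

theorem eqI_apply (m : ℕ) (L : Fin m → Fin p → Fin n) (r : Fin m) (c : Fin p) :
    eqI m p n L (finProdFinEquiv (r, c)) = L r c := by
  simp [eqI, Equiv.arrowCongr]

theorem tq_comp_right (m : ℕ) (A : Cm n →L[ℂ] Cm p) {n' : ℕ} (B : Cm n' →L[ℂ] Cm n)
    (I : Fin (m * p) → Fin n') : tq m (A.comp B) I =
      ∑ K : Fin (m * p) → Fin n, (∏ a, B (Pi.single (I a) 1) (K a)) * tq m A K := by
  unfold tq
  simp only [det_mK_comp_right]
  rw [Finset.prod_univ_sum, Fintype.piFinset_univ, ← Equiv.sum_comp (eqI m p n)]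
  refine Finset.sum_congr rfl fun L _ => ?_
  rw [Finset.prod_mul_distrib]
  congr 1
  · rw [← Equiv.prod_comp finProdFinEquiv, Fintype.prod_prod_type]
    refine Finset.prod_congr rfl fun r _ => Finset.prod_congr rfl fun c _ => ?_
    rw [eqI_apply]
  · refine Finset.prod_congr rfl fun r _ => ?_
    simp only [eqI_apply]

/-- `tq` of a surjective map is not zero -/
theorem tq_ne_zero (m : ℕ) {A : Cm n →L[ℂ] Cm p} (hA : Function.Surjective A) :
    ∃ I, tq m A I ≠ 0 := by
  obtain ⟨B, hB⟩ : ∃ B : Cm p →L[ℂ] Cm n, A.comp B = ContinuousLinearMap.id ℂ (Cm p) := by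
    obtain ⟨g, hg⟩ := (A : Cm n →ₗ[ℂ] Cm p).exists_rightInverse_of_surjective
      (LinearMap.range_eq_top.2 hA)
    refine ⟨LinearMap.toContinuousLinearMap g, ?_⟩
    ext1 v
    exact congrArg (fun T : Cm p →ₗ[ℂ] Cm p => T v) hg
  have h1 : (mK (A.comp B) id).det = 1 := by
    rw [hB]
    have : mK (ContinuousLinearMap.id ℂ (Cm p)) id = 1 := by
      ext a c
      simp [mK, Matrix.one_apply, Pi.single_apply]
    rw [this, Matrix.det_one]
  rw [det_mK_comp_right] at h1
  obtain ⟨L, -, hL⟩ := Finset.exists_ne_zero_of_sum_ne_zero (by rw [h1]; exact one_ne_zero)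
  refine ⟨eqI m p n fun _ => L, ?_⟩
  unfold tq
  refine Finset.prod_ne_zero_iff.2 fun r _ => ?_
  simp only [eqI_apply]
  exact right_ne_zero_of_mul hL

/-- the factor `e^{κ - 1}` -/
theorem det_mK_factor {A : Cm n →L[ℂ] Cm p} {γ : Cm p →L[ℂ] ℂ} {c : ℂ} {ρ : Cm n →L[ℂ] ℂ}
    (h : γ.comp A = c • ρ) (a₀ : Fin p) (K : Fin p → Fin n) :
    γ (Pi.single a₀ 1) * (mK A K).det =
      c * ((mK A K).updateRow a₀ fun j => ρ (Pi.single (K j) 1)).det := by
  have h1 := Matrix.det_updateRow_sum (mK A K) a₀ fun a => γ (Pi.single a 1)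
  rw [smul_eq_mul] at h1
  rw [← h1]
  have h2 : (∑ k, γ (Pi.single k 1) • mK A K k) = c • fun j => ρ (Pi.single (K j) 1) := by
    funext j
    rw [Finset.sum_apply]
    simp only [Pi.smul_apply, smul_eq_mul]
    have h3 := congrArg (fun T : Cm n →L[ℂ] ℂ => T (Pi.single (K j) 1)) h
    simp only [ContinuousLinearMap.comp_apply, ContinuousLinearMap.smul_apply, smul_eq_mul] at h3
    rw [← h3]
    have h4 : A (Pi.single (K j) 1) =
        ∑ a : Fin p, A (Pi.single (K j) 1) a • Pi.single a (1 : ℂ) := by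
      funext i
      simp [Finset.sum_apply, Pi.single_apply]
    conv_rhs => rw [h4]
    rw [map_sum]
    refine Finset.sum_congr rfl fun a _ => ?_
    rw [map_smul, smul_eq_mul, mul_comm]
    rfl
  rw [h2, Matrix.det_updateRow_smul]

end Vale.Agent.P281.H713.SA
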