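import Vale.Agent.P281.H713.SA.T2

/-! P281, theorem SA, block T: local extension of the pulled back tensors on `Z`. -/

open scoped Manifold ContDiff Topology ComplexOrder
open Set Filter Metric Asymptotics Vale.Agent.P272.K

noncomputable section

namespace Vale.Agent.P281.H713.SA

open Vale.Agent.P281 Vale.Agent.P281.MF Vale.Agent.P281.ISO

set_option linter.unusedSectionVars false

section Local

variable {n p : ℕ} {Z Y : Type} [TopologicalSpace Z] [ChartedSpace (Cm n) Z]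
  [IsManifold 𝓘(ℂ, Cm n) ω Z] [TopologicalSpace Y] [ChartedSpace (Cm p) Y]
  [IsManifold 𝓘(ℂ, Cm p) ω Y]

/-- `tq` in terms of a chart of `Y` -/
theorem jac_tq {f : Z → Y} {z : Z} {y₀ : Y} (hf : HolM (Cm n) (Cm p) f z)
    (hy : f z ∈ (chartAt (Cm p) y₀).source) (m : ℕ) (R : Cm n →L[ℂ] Cm n)
    (I : Fin (m * p) → Fin n) :
    jac (Cm p) (chartAt (Cm p) y₀) (f z) ^ m * tq m ((dM (Cm n) (Cm p) f z).comp R) I =
      tq m ((dV (Cm n) (fun z => (chartAt (Cm p) y₀ : Y → Cm p) (f z)) z).comp R) I := by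
  have h1 := dV_comp (h := (chartAt (Cm p) y₀ : Y → Cm p)) (HolV.chart hy) hf
  rw [h1]
  exact (tq_comp_left m (dV (Cm p) (chartAt (Cm p) y₀ : Y → Cm p) (f z))
    ((dM (Cm n) (Cm p) f z).comp R) I).symm

/-- near a good point, `f^*(dy_1 ∧ … ∧ dy_p)` is divisible by `e^{κ - 1}` -/
theorem det_bound {f : Z → Y} {y : Z} {y₀ : Y} {c : Z → Cm n}
    (hf : ∀ z, HolM (Cm n) (Cm p) f z) (hy : f y ∈ (chartAt (Cm p) y₀).source)
    (hc : HolV (Cm n) c y) (hu : IsUnit (dV (Cm n) c y)) {e w : Z → ℂ} {g : Y → ℂ} {κ : ℕ}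
    (hκ : 0 < κ) (he : HolV (Cm n) e y) (hw : HolV (Cm n) w y) (hg : HolV (Cm p) g (f y))
    (hdg : dif (Cm p) g (f y) ≠ 0) (heq : ∀ᶠ z in 𝓝 y, g (f z) = e z ^ κ * w z)
    (K : Fin p → Fin n) : ∃ C : ℝ, 0 ≤ C ∧ ∀ᶠ z in 𝓝 y,
      ‖(mK ((dV (Cm n) (fun z => (chartAt (Cm p) y₀ : Y → Cm p) (f z)) z).comp
        (Ring.inverse (dV (Cm n) c z))) K).det‖ ≤ C * ‖e z‖ ^ (κ - 1) := by
  set ψ := chartAt (Cm p) y₀ with hψ
  have hfc : ContinuousAt f y := (hf y).continuousAt
  have hψf : HolV (Cm n) (fun z => ψ (f z)) y :=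
    HolV.comp (h := (ψ : Y → Cm p)) (HolV.chart hy) (hf y)
  -- the covector `γ = dg` in the chart `ψ`
  set γ : Z → (Cm p →L[ℂ] ℂ) := fun z => fderiv ℂ (g ∘ ψ.symm) (ψ (f z)) with hγ
  have hγh : HolV (Cm n) γ y :=
    HolV.comp_contDiff (G := fderiv ℂ (g ∘ ψ.symm)) ((hg.rep hy).fderiv_right (by simp)) hψf
  have hγ0 : γ y ≠ 0 := by
    intro h0
    apply hdg
    have h1 := dV_eq_chart hy hg
    rw [dif_eq_dV, h1]
    have h2 : fderiv ℂ (g ∘ ψ.symm) (ψ (f y)) = 0 := h0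
    rw [h2]
    ext; simp
  obtain ⟨a₀, ha₀⟩ : ∃ a₀, γ y (Pi.single a₀ 1) ≠ 0 := by
    by_contra hcon
    push Not at hcon
    apply hγ0
    refine ContinuousLinearMap.ext fun v => ?_
    have h4 : v = ∑ a : Fin p, v a • Pi.single a (1 : ℂ) := by
      funext i
      simp [Finset.sum_apply, Pi.single_apply]
    rw [h4, map_sum]
    simp [hcon]
  have hγa : HolV (Cm n) (fun z => γ z (Pi.single a₀ 1)) y :=
    HolV.comp_contDiff (G := fun l : Cm p →L[ℂ] ℂ => l (Pi.single a₀ 1))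
      (ContinuousLinearMap.apply ℂ ℂ (Pi.single a₀ (1 : ℂ) : Cm p)).contDiff.contDiffAt hγh
  set 𝒜 : Z → (Cm n →L[ℂ] Cm p) := fun z =>
    (dV (Cm n) (fun z => ψ (f z)) z).comp (Ring.inverse (dV (Cm n) c z)) with h𝒜
  have h𝒜h : HolV (Cm n) 𝒜 y := holV_quot hψf hc hu
  set Re : Z → (Cm n →L[ℂ] ℂ) := fun z =>
    (dV (Cm n) e z).comp (Ring.inverse (dV (Cm n) c z)) with hRe
  have hReh : HolV (Cm n) Re y := holV_quot he hc hu
  set Rw : Z → (Cm n →L[ℂ] ℂ) := fun z =>
    (dV (Cm n) w z).comp (Ring.inverse (dV (Cm n) c z)) with hRw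
  have hRwh : HolV (Cm n) Rw y := holV_quot hw hc hu
  set ρ : Z → (Cm n →L[ℂ] ℂ) := fun z => (κ * w z) • Re z + e z • Rw z with hρ
  have hρc : ContinuousAt ρ y := by
    have h1 : ContinuousAt (fun z => (κ : ℂ) * w z) y := continuousAt_const.mul hw.continuousAt
    exact (h1.smul hReh.continuousAt).add (he.continuousAt.smul hRwh.continuousAt)
  have hkey : ∀ᶠ z in 𝓝 y, (γ z).comp (𝒜 z) = e z ^ (κ - 1) • ρ z := by
    filter_upwards [he.eventually, hw.eventually, heq.eventually_nhds,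
      hfc.eventually (HolV.eventually (E := Cm p) hg),
      hfc.eventually (ψ.open_source.mem_nhds hy)] with z h1 h2 h3 h4 h5
    have h6 : (γ z).comp (dV (Cm n) (fun z => ψ (f z)) z) = dV (Cm n) (fun z => g (f z)) z := by
      rw [dV_comp h4 (hf z), dV_comp (h := (ψ : Y → Cm p)) (HolV.chart h5) (hf z),
        dV_eq_chart h5 h4]
      rfl
    have h7 : dV (Cm n) (fun z => g (f z)) z = dV (Cm n) (fun z => e z ^ κ * w z) z := by
      exact Filter.EventuallyEq.mfderiv_eq h3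
    have h8 : dV (Cm n) (fun z => e z ^ κ * w z) z =
        e z ^ (κ - 1) • ((κ * w z) • dV (Cm n) e z + e z • dV (Cm n) w z) := by
      have h9 : HolV (Cm n) (fun z => e z ^ κ) z := h1.pow κ
      have h10 : dV (Cm n) (fun z => e z ^ κ) z = (κ * e z ^ (κ - 1)) • dV (Cm n) e z := by
        have h11 := dV_comp_contDiff (G := fun t : ℂ => t ^ κ) (contDiff_id.pow κ).contDiffAt h1
        rw [h11]
        have h12 : fderiv ℂ (fun t : ℂ => t ^ κ) (e z) =
            (κ * e z ^ (κ - 1)) • ContinuousLinearMap.id ℂ ℂ := by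
          refine ContinuousLinearMap.ext_ring ?_
          rw [fderiv_eq_smul_deriv]
          simp
        rw [h12]
        rfl
      have h13 := dV_smul h9 h2
      have h14 : dV (Cm n) (fun z => e z ^ κ * w z) z =
        e z ^ κ • dV (Cm n) w z + (dV (Cm n) (fun z => e z ^ κ) z).smulRight (w z) := h13
      rw [h14, h10]
      ext v
      simp only [ContinuousLinearMap.add_apply, ContinuousLinearMap.smul_apply, smul_eq_mul,
        ContinuousLinearMap.smulRight_apply]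
      have h15 : e z ^ κ = e z ^ (κ - 1) * e z := by
        rw [← pow_succ, Nat.sub_add_cancel hκ]
      rw [h15]
      ring
    calc (γ z).comp (𝒜 z) = ((γ z).comp (dV (Cm n) (fun z => ψ (f z)) z)).comp
          (Ring.inverse (dV (Cm n) c z)) := rfl
      _ = (e z ^ (κ - 1) • ((κ * w z) • dV (Cm n) e z + e z • dV (Cm n) w z)).comp
          (Ring.inverse (dV (Cm n) c z)) := by rw [h6, h7, h8]
      _ = e z ^ (κ - 1) • ρ z := by
          ext v
          simp [hρ, hRe, hRw]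
  set M : Z → ℂ := fun z => ((mK (𝒜 z) K).updateRow a₀ fun j => ρ z (Pi.single (K j) 1)).det
    with hM
  have hMc : ContinuousAt M y := by
    have h1 : ContinuousAt (fun z => (mK (𝒜 z) K).updateRow a₀ fun j => ρ z (Pi.single (K j) 1))
        y := by
      refine continuousAt_pi.2 fun a => continuousAt_pi.2 fun j => ?_
      by_cases ha : a = a₀
      · subst ha
        simp only [Matrix.updateRow_self]
        exact hρc.clm_apply continuousAt_const
      · simp only [Matrix.updateRow_ne ha]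
        have h2 : ContinuousAt (fun z => 𝒜 z (Pi.single (K j) 1)) y :=
          h𝒜h.continuousAt.clm_apply continuousAt_const
        exact (continuousAt_pi.1 h2 a)
    exact (Continuous.matrix_det continuous_id).continuousAt.comp h1
  set B : Z → ℂ := fun z => M z / γ z (Pi.single a₀ 1) with hB
  have hBc : ContinuousAt B y := hMc.div hγa.continuousAt ha₀
  refine ⟨‖B y‖ + 1, by positivity, ?_⟩
  filter_upwards [hkey, hγa.continuousAt.eventually_ne ha₀,
    hBc.norm.eventually_lt_const (lt_add_one ‖B y‖)] with z h1 h2 h3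
  have h4 := det_mK_factor h1 a₀ K
  have h5 : (mK (𝒜 z) K).det = e z ^ (κ - 1) * B z := by
    simp only [hB]
    rw [← mul_div_assoc, eq_div_iff h2, mul_comm, h4]
  rw [h5, norm_mul, norm_pow, mul_comm]
  gcongr

theorem tq_bound {f : Z → Y} {y : Z} {y₀ : Y} {c : Z → Cm n}
    (hf : ∀ z, HolM (Cm n) (Cm p) f z) (hy : f y ∈ (chartAt (Cm p) y₀).source)
    (hc : HolV (Cm n) c y) (hu : IsUnit (dV (Cm n) c y)) {e w : Z → ℂ} {g : Y → ℂ} {κ : ℕ}
    (hκ : 0 < κ) (he : HolV (Cm n) e y) (hw : HolV (Cm n) w y) (hg : HolV (Cm p) g (f y))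
    (hdg : dif (Cm p) g (f y) ≠ 0) (heq : ∀ᶠ z in 𝓝 y, g (f z) = e z ^ κ * w z) (m : ℕ)
    (I : Fin (m * p) → Fin n) : ∃ C : ℝ, 0 ≤ C ∧ ∀ᶠ z in 𝓝 y,
      ‖tq m ((dV (Cm n) (fun z => (chartAt (Cm p) y₀ : Y → Cm p) (f z)) z).comp
        (Ring.inverse (dV (Cm n) c z))) I‖ ≤ C * ‖e z‖ ^ (m * (κ - 1)) := by
  choose C hC0 hC using fun r : Fin m => det_bound hf hy hc hu hκ he hw hg hdg heq
    (fun c => I (finProdFinEquiv (r, c)))
  refine ⟨∏ r, C r, Finset.prod_nonneg fun r _ => hC0 r, ?_⟩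
  filter_upwards [eventually_all.2 hC] with z hz
  unfold tq
  rw [norm_prod]
  calc _ ≤ ∏ r : Fin m, (C r * ‖e z‖ ^ (κ - 1)) :=
        Finset.prod_le_prod (fun r _ => norm_nonneg _) fun r _ => hz r
    _ = (∏ r, C r) * ‖e z‖ ^ (m * (κ - 1)) := by
        rw [Finset.prod_mul_distrib, Finset.prod_const, Finset.card_univ, Fintype.card_fin,
          ← pow_mul, mul_comm m]

end Local

end Vale.Agent.P281.H713.SA
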