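import Vale.Agent.P281.H713.SA.T5

/-! P281, theorem SA, block T: the tensors on `X`. -/

open scoped Manifold ContDiff Topology ComplexOrder
open Set Filter Metric Asymptotics Vale.Agent.P272.K

noncomputable section

namespace Vale.Agent.P281.H713.SA

open Vale.Agent.P281 Vale.Agent.P281.MF Vale.Agent.P281.ISO Vale.Agent.P299.D

set_option linter.unusedSectionVars false

section Tens

variable {n p : ℕ} {X Z Y : Type} [TopologicalSpace X] [ChartedSpace (Cm n) X]
  [IsManifold 𝓘(ℂ, Cm n) ω X] [TopologicalSpace Z] [ChartedSpace (Cm n) Z]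
  [IsManifold 𝓘(ℂ, Cm n) ω Z] [TopologicalSpace Y] [ChartedSpace (Cm p) Y]
  [IsManifold 𝓘(ℂ, Cm p) ω Y]

open Classical in
/-- the component `I` of the pulled back tensor in the chart `e`, off the bad set -/
def hX (j : Z → X) (f : Z → Y) (m : ℕ) (σ : Y → ℂ) (e : Chart n X) (I : Fin (m * p) → Fin n)
    (x : X) : ℂ :=
  if h : x ∈ range j then σ (f h.choose) * tT f m (fun z => e (j z)) I h.choose else 0

theorem hX_j {j : Z → X} (hj₁ : Topology.IsOpenEmbedding j) (f : Z → Y) (m : ℕ) (σ : Y → ℂ)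
    (e : Chart n X) (I : Fin (m * p) → Fin n) (z : Z) :
    hX j f m σ e I (j z) = σ (f z) * tT f m (fun z => e (j z)) I z := by
  have h1 : j z ∈ range j := mem_range_self z
  have h2 : h1.choose = z := hj₁.injective h1.choose_spec
  rw [hX, dif_pos h1, h2]

/-- transition rule on the good set -/
theorem tT_change {j : Z → X} (hj : ∀ z, HolM (Cm n) (Cm n) j z)
    (hj₂ : ∀ z, Function.Injective (dM (Cm n) (Cm n) j z)) (f : Z → Y) (m : ℕ)
    {e e' : Chart n X} {z : Z} (h : At e (j z)) (h' : At e' (j z)) (I : Fin (m * p) → Fin n) :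
    tT f m (fun z => e (j z)) I z =
      ∑ K : Fin (m * p) → Fin n, (∏ a, jacM e e' (j z) (K a) (I a)) *
        tT f m (fun z => e' (j z)) K z := by
  unfold tT
  set M : Cm n →L[ℂ] Cm n := fderiv ℂ (fun w => e' (e.symm w)) (e (j z)) with hM
  have h1 := dV_change hj h h'
  have hu := isUnit_ej hj hj₂ h
  have hu' := isUnit_ej hj hj₂ h'
  have h2 : Ring.inverse (dV (Cm n) (fun z => e (j z)) z) =
      (Ring.inverse (dV (Cm n) (fun z => e' (j z)) z)).comp M := by
    have h3 : dV (Cm n) (fun z => e' (j z)) z = M * dV (Cm n) (fun z => e (j z)) z := h1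
    have h4 : (Ring.inverse (dV (Cm n) (fun z => e' (j z)) z)) *
        (dV (Cm n) (fun z => e' (j z)) z) = 1 := Ring.inverse_mul_cancel _ hu'
    calc Ring.inverse (dV (Cm n) (fun z => e (j z)) z)
        = (Ring.inverse (dV (Cm n) (fun z => e' (j z)) z) *
            (dV (Cm n) (fun z => e' (j z)) z)) *
            Ring.inverse (dV (Cm n) (fun z => e (j z)) z) := by rw [h4, one_mul]
      _ = (Ring.inverse (dV (Cm n) (fun z => e' (j z)) z) * M) *
            (dV (Cm n) (fun z => e (j z)) z *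
              Ring.inverse (dV (Cm n) (fun z => e (j z)) z)) := by rw [h3]; noncomm_ring
      _ = _ := by rw [Ring.mul_inverse_cancel _ hu, mul_one]; rfl
  rw [h2, ← ContinuousLinearMap.comp_assoc, tq_comp_right]
  refine Finset.sum_congr rfl fun K _ => ?_
  congr 1
  refine Finset.prod_congr rfl fun a _ => ?_
  rw [jacM_apply h h']

end Tens

/-- **Block T**. -/
theorem tensorPart : TensorPart := by
  classical
  intro n p X Z Y _ _ _ _ _ _ _ _ _ j hj f hf 𝒢 h𝒢 m k hk hkG
  obtain ⟨hj0, hj₁, hj₂, hthinj⟩ := hj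
  obtain ⟨h𝒢fin, h𝒢pr, 𝒟, h𝒟fin, hpre, hdom⟩ := h𝒢
  have hjh : ∀ z, HolM (Cm n) (Cm n) j z := fun z => hj0 z
  have hfh : ∀ z, HolM (Cm n) (Cm p) f z := fun z => hf z
  have hfcont : Continuous f := hf.continuous
  set S : Set Y := ⋃₀ 𝒢 with hS
  have hSc : IsClosed S := by
    rw [hS, sUnion_eq_biUnion]
    exact h𝒢fin.isClosed_biUnion fun G hG => (h𝒢pr G hG).1
  have h𝒟pr : ∀ D ∈ 𝒟, IsPrimeDivisor (Cm n) D := fun D hD => by
    obtain ⟨G, hG, h1, -⟩ := hdom D hD
    exact h1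
  have hthin := thin_of_components (f := f) hfh h𝒟fin h𝒢pr h𝒟pr hpre (fun D hD => by
    obtain ⟨G, hG, h1, h2, h3⟩ := hdom D hD
    exact ⟨G, hG, h2, h3⟩)
  -- the good set
  set Ω : Set X := {x | ∃ z, j z = x ∧ f z ∉ S} with hΩ
  have hΩj : Ω ⊆ range j := by
    rintro x ⟨z, rfl, -⟩
    exact mem_range_self z
  have hjd : Dense (range j) := by
    intro x
    obtain ⟨h, -, hne, hev⟩ := hthinj x
    rw [mem_closure_iff_frequently]
    intro hcon
    apply hne
    filter_upwards [hcon, hev] with z hz hz'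
    exact hz'.1 hz
  have hΩd : Dense Ω := by
    have h1 : Dense {z | f z ∉ S} := by
      intro x
      obtain ⟨h, -, hne, hev⟩ := hthin x
      rw [mem_closure_iff_frequently]
      intro hcon
      apply hne
      filter_upwards [hcon, hev] with z hz hz'
      exact hz'.1 (not_not.1 hz)
    have h2 : j '' {z | f z ∉ S} = Ω := by
      ext x
      constructor
      · rintro ⟨z, hz, rfl⟩
        exact ⟨z, rfl, hz⟩
      · rintro ⟨z, rfl, hz⟩
        exact ⟨z, hz, rfl⟩
    rw [← h2]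
    exact DenseRange.dense_image (f := j) hjd hj₁.continuous h1
  have hkpr : ∀ G, k G ≠ 0 → IsPrimeDivisor (Cm p) G := fun G hG => h𝒢pr G (hkG G hG)
  have hkS : ∀ G, k G ≠ 0 → G ⊆ S := fun G hG => subset_sUnion_of_mem (hkG G hG)
  have hexp : ∀ (D : Set Z) (G : Set Y) (κ : ℕ), IsPrimeDivisor (Cm n) D →
      IsPrimeDivisor (Cm p) G → closure (f '' D) = G → 0 < κ →
      (∃ z ∈ D, ∃ e g w, IsLocalEq (Cm n) D e z ∧ IsLocalEq (Cm p) G g (f z) ∧
        HolAt (Cm n) w z ∧ w z ≠ 0 ∧ ∀ᶠ x in 𝓝 z, g (f x) = e x ^ κ * w x) →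
      κ * k G ≤ m * (κ - 1) := by
    intro D G κ hD hG hDG hκ hx
    have h1 := orbBase'_mul_le (Δ := 0) hκ hG hD hDG hx (by simp) (by simp)
    simp only [Pi.zero_apply, add_zero] at h1
    have h2 := hk G
    have h3 : (κ : ℝ) * k G ≤ m * (κ - 1) := by
      calc (κ : ℝ) * k G ≤ κ * (m * J.orbBase' (Cm n) (Cm p) f 0 G) :=
            mul_le_mul_of_nonneg_left h2 (Nat.cast_nonneg κ)
        _ = m * (κ * J.orbBase' (Cm n) (Cm p) f 0 G) := by ring
        _ ≤ m * (κ - 1) := mul_le_mul_of_nonneg_left h1 (Nat.cast_nonneg m)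
    have h4 : ((κ - 1 : ℕ) : ℝ) = (κ : ℝ) - 1 := by
      rw [Nat.cast_sub hκ]; simp
    rw [← h4] at h3
    exact_mod_cast h3
  refine ⟨m * p, fun e z I => tT f m (fun z => e (j z)) I z, ?_, ?_⟩
  · intro e z h hsurj
    refine tq_ne_zero m ?_
    have hu := isUnit_ej hjh hj₂ h
    intro y
    obtain ⟨v, hv⟩ := hsurj y
    refine ⟨dV (Cm n) (fun z => e (j z)) z v, ?_⟩
    have h4 : (Ring.inverse (dV (Cm n) (fun z => e (j z)) z)) *
        (dV (Cm n) (fun z => e (j z)) z) = 1 := Ring.inverse_mul_cancel _ hu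
    have h5 := congrArg (fun T : Cm n →L[ℂ] Cm n => T v) h4
    show dM (Cm n) (Cm p) f z (Ring.inverse (dV (Cm n) (fun z => e (j z)) z)
      (dV (Cm n) (fun z => e (j z)) z v)) = y
    have h6 : Ring.inverse (dV (Cm n) (fun z => e (j z)) z)
      (dV (Cm n) (fun z => e (j z)) z v) = v := h5
    rw [h6]
    exact hv
  · intro σ hσ
    -- local extensions
    have hloc : ∀ (e : Chart n X), e ∈ atlas (Cm n) X → ∀ I : Fin (m * p) → Fin n,
        ∀ x ∈ e.source, ∃ Q : X → ℂ, HolV (Cm n) Q x ∧ ∀ᶠ y in 𝓝 x, y ∈ Ω →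
          hX j f m σ e I y = Q y := by
      intro e he I x hx
      refine ext_big hj₁ hthinj hΩj hΩd e.open_source ?_ hx
      rintro x₁ hx₁ ⟨z₀, rfl⟩
      have hAt : At e (j z₀) := ⟨he, hx₁⟩
      obtain ⟨Q, hQ, hQe⟩ := tens_local hfh hSc hthin hkpr hkS hexp hσ (holV_ej hjh hAt)
        (isUnit_ej hjh hj₂ hAt) I
      set Q' : X → ℂ := fun x => if h : x ∈ range j then Q h.choose else 0 with hQ'
      have hQj : ∀ w, Q' (j w) = Q w := by
        intro w
        have h1 : j w ∈ range j := mem_range_self w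
        have h2 : h1.choose = w := hj₁.injective h1.choose_spec
        simp only [hQ']
        rw [dif_pos h1, h2]
      refine ⟨Q', holV_of_comp (hjh z₀) (hj₂ z₀) (by simpa only [hQj] using hQ), ?_⟩
      rw [← hj₁.map_nhds_eq z₀, eventually_map]
      filter_upwards [hQe] with w hw hwΩ
      obtain ⟨w', hw', hfw⟩ := hwΩ
      have h3 : w' = w := hj₁.injective hw'
      subst h3
      rw [hX_j hj₁, hQj]
      exact hw hfw
    refine ⟨fun e z I => if e ∈ atlas (Cm n) X then ext (Cm n) Ω (hX j f m σ e I) (e.symm z)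
      else 0, ⟨?_, ?_⟩, ?_⟩
    · intro e x h I
      simp only [if_pos h.1]
      have h1 : HolV (Cm n) (ext (Cm n) Ω (hX j f m σ e I)) x :=
        ext_holV hΩd (hloc e h.1 I x h.2)
      have hmem : e ∈ IsManifold.maximalAtlas 𝓘(ℂ, Cm n) ω X := IsManifold.subset_maximalAtlas h.1
      have h2 : ContMDiffAt 𝓘(ℂ, Cm n) 𝓘(ℂ, Cm n) ω e.symm (e x) :=
        contMDiffAt_symm_of_mem_maximalAtlas hmem (e.map_source h.2)
      have h3 : ContMDiffAt 𝓘(ℂ, Cm n) 𝓘(ℂ, ℂ) ω
          (fun z => ext (Cm n) Ω (hX j f m σ e I) (e.symm z)) (e x) := by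
        refine ContMDiffAt.comp (I' := 𝓘(ℂ, Cm n)) (g := ext (Cm n) Ω (hX j f m σ e I)) (e x) ?_ h2
        rw [e.left_inv h.2]
        exact h1
      exact (contMDiffAt_iff_contDiffAt.1 h3).analyticAt
    · intro e e' x h h' I
      rw [pow_zero, one_mul]
      simp only [tenPull, if_pos h.1, if_pos h'.1, e.left_inv h.2, e'.left_inv h'.2]
      refine eq_of_dense (x := x) (g := fun y => ext (Cm n) Ω (hX j f m σ e I) y)
        (h := fun y => ∑ K : Fin (m * p) → Fin n, (∏ a, jacM e e' y (K a) (I a)) *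
          ext (Cm n) Ω (hX j f m σ e' K) y) hΩd
        (ext_holV hΩd (hloc e h.1 I x h.2)).continuousAt ?_ ?_
      · refine tendsto_finset_sum _ fun K _ => Tendsto.mul ?_
          (ext_holV hΩd (hloc e' h'.1 K x h'.2)).continuousAt
        exact tendsto_finset_prod _ fun a _ => contAt_jacM h h' (K a) (I a)
      · filter_upwards [e.open_source.mem_nhds h.2, e'.open_source.mem_nhds h'.2] with y h1 h2 hy
        have h3 : ∀ K, ext (Cm n) Ω (hX j f m σ e' K) y = hX j f m σ e' K y := fun K =>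
          ext_self hΩd (hloc e' h'.1 K y h2) hy
        rw [ext_self hΩd (hloc e h.1 I y h1) hy]
        simp only [h3]
        obtain ⟨z, rfl, hz⟩ := hy
        simp only [hX_j hj₁]
        rw [tT_change hjh hj₂ f m (e := e) (e' := e') ⟨h.1, h1⟩ ⟨h'.1, h2⟩ I, Finset.mul_sum]
        exact Finset.sum_congr rfl fun K _ => by ring
    · intro e z h hz I
      simp only [if_pos h.1, e.left_inv h.2]
      have hzΩ : j z ∈ Ω := ⟨z, rfl, hz⟩
      rw [ext_self hΩd (hloc e h.1 I _ h.2) hzΩ, hX_j hj₁]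

end Vale.Agent.P281.H713.SA
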